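import Vale.Agent.N352.DefR
import Vale.Agent.N352.Brg
import Vale.Agent.N352.E.Wl
import Vale.Agent.P352R.Tw.Kl

/-!
# N352, block Rn: a graded local net gives a relatively local net
-/

set_option linter.all false

namespace Vale.Agent.N352.Rn.Cv

open Vale.Agent.P352 Vale.Agent.P352.GF Vale.Agent.P352.BW Vale.Agent.P352.H246
open Vale.Agent.P352.H496 Vale.Agent.P352.H755 Vale.Agent.P352.H15
open Vale.Agent.P352X Vale.Agent.P352X.EG
open Vale.Agent.P352X.EB (W0 W1 Sg)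
open UniformSpace (Completion)
open P352R.Tw P352W.Net

noncomputable section

/-- future time-like vectors -/
def Tl (v : V) : Prop := ∀ a, IsNull a → 0 < GF.mdot a v

/-- future causal vectors -/
def Cl (v : V) : Prop := ∀ a, IsNull a → 0 ≤ GF.mdot a v

/-- diamonds -/
def Dm (p q : V) : Set V := {x | Tl (x - p) ∧ Tl (q - x)}

theorem nn {a b : V} (ha : IsNull a) (hb : IsNull b) :
    0 < GF.mdot a b ∨ ∀ u, a 0 * GF.mdot b u = b 0 * GF.mdot a u := by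
  refine (lt_or_ge 0 (GF.mdot a b)).imp id fun h u => ?_
  have h1 := ha.1
  have h2 := hb.1
  have h3 : 0 < a 0 * b 0 := mul_pos ha.2 hb.2
  have h4 := mul_nonpos_of_nonneg_of_nonpos h3.le h
  simp only [P352X.mdot_eq] at h1 h2 h4 ⊢
  have k : (a 0 * b 1 - b 0 * a 1) ^ 2 + (a 0 * b 2 - b 0 * a 2) ^ 2 +
      (a 0 * b 3 - b 0 * a 3) ^ 2 = 2 * (a 0 * b 0 * (a 0 * b 0 - a 1 * b 1 - a 2 * b 2 - a 3 * b 3)) := by
    linear_combination (-(a 0) ^ 2) * h2 - (b 0) ^ 2 * h1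
  have s1 := sq_nonneg (a 0 * b 1 - b 0 * a 1)
  have s2 := sq_nonneg (a 0 * b 2 - b 0 * a 2)
  have s3 := sq_nonneg (a 0 * b 3 - b 0 * a 3)
  have e1 := pow_eq_zero_iff two_ne_zero |>.1 (s1.antisymm' (by linarith))
  have e2 := pow_eq_zero_iff two_ne_zero |>.1 (s2.antisymm' (by linarith))
  have e3 := pow_eq_zero_iff two_ne_zero |>.1 (s3.antisymm' (by linarith))
  linear_combination (-u 1) * e1 - u 2 * e2 - u 3 * e3

/-- space-like separated diamonds lie in opposite wedges -/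
theorem sep {p q p' q' : V} (h : Cl (q - p)) (h' : Cl (q' - p'))
    (s : GF.mdot (p - q') (p - q') < 0) (s' : GF.mdot (q - p') (q - p') < 0) :
    ∃ a b y, IsNull a ∧ IsNull b ∧ 0 < GF.mdot a b ∧ Dm p q ⊆ Wdg b a y ∧
      ∀ x, Cl (x - p') → Cl (q' - x) → x ∈ Wdg a b y := by
  obtain ⟨a, -, ha, -, -, a1, -⟩ := EB.Geo.ex_pair s
  obtain ⟨-, b, -, hb, -, -, b1⟩ := EB.Geo.ex_pair s'
  have ab : 0 < GF.mdot a b := (nn ha hb).resolve_right fun e => by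
    have e1 := e (q - p')
    have e2 := h a ha
    have e3 := h' a ha
    have e4 : b 0 * GF.mdot a (q - p') < 0 := e1 ▸ mul_neg_of_pos_of_neg ha.2 b1
    have e5 := neg_of_mul_neg_right e4 hb.2.le
    rw [md_sub] at a1 e2 e3 e5
    linarith
  obtain ⟨y, e1, e2⟩ : ∃ y, GF.mdot a y = GF.mdot a p ∧ GF.mdot b y = GF.mdot b q :=
    ⟨(GF.mdot b q / GF.mdot a b) • a + (GF.mdot a p / GF.mdot a b) • b,
      by rw [md_add, md_smul, md_smul, ha.1, mul_zero, zero_add, div_mul_cancel₀ _ ab.ne'],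
      by rw [md_add, md_smul, md_smul, hb.1, mul_zero, add_zero, md_comm b a,
        div_mul_cancel₀ _ ab.ne']⟩
  rw [md_sub] at a1 b1
  refine ⟨a, b, y, ha, hb, ab, fun x k => ?_, fun x k k' => ?_⟩
  · have k1 := k.1 a ha
    have k2 := k.2 b hb
    rw [md_sub] at k1 k2
    exact ⟨by rw [md_sub]; linarith, by rw [md_sub]; linarith⟩
  · have k1 := k b hb
    have k2 := k' a ha
    rw [md_sub] at k1 k2
    exact ⟨by rw [md_sub]; linarith, by rw [md_sub]; linarith⟩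

theorem md_act (g : Sg) {a : V} (ha : IsNull a) :
    ∃ b, IsNull b ∧ ∀ x p, GF.mdot a (g.act x - g.act p) = GF.mdot b (x - p) :=
  ⟨_, EB.Geo.null_smul (isNull_lor (isLor_linv g.hL) ha) g.hs, fun x p => by
    simp only [g.act_eq, md_sub, md_add, md_smul, md_smul_l, md_lor' _ _ g.hL]
    ring⟩

theorem tl_act (g : Sg) {x p : V} (h : Tl (x - p)) : Tl (g.act x - g.act p) := fun _ ha =>
  let ⟨b, hb, e⟩ := md_act g ha
  e x p ▸ h b hb

theorem cl_act (g : Sg) {x p : V} (h : Cl (x - p)) : Cl (g.act x - g.act p) := fun _ ha =>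
  let ⟨b, hb, e⟩ := md_act g ha
  e x p ▸ h b hb

theorem tl_of {v : V} (h : |v 1| + |v 2| + |v 3| < v 0) : Tl v := fun a ha => by
  have h1 := ha.1
  have h2 : 0 < a 0 := ha.2
  rw [P352X.mdot_eq] at h1 ⊢
  have k : ∀ i, a i * a i ≤ a 0 * a 0 → a i * v i ≤ a 0 * |v i| := fun i e =>
    (le_abs_self _).trans ((abs_mul _ _).trans_le
      (mul_le_mul_of_nonneg_right (abs_le_of_sq_le_sq (by nlinarith) h2.le) (abs_nonneg _)))
  have s1 := mul_self_nonneg (a 1)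
  have s2 := mul_self_nonneg (a 2)
  have s3 := mul_self_nonneg (a 3)
  nlinarith [k 1 (by linarith), k 2 (by linarith), k 3 (by linarith), mul_pos h2 (sub_pos.2 h)]

section vn

variable {H : Type*} [NormedAddCommGroup H] [InnerProductSpace ℂ H] [CompleteSpace H]
  {S : Set (H →L[ℂ] H)} {Γ : H →L[ℂ] H} {M : VonNeumannAlgebra H}

theorem vn_le (h : ∀ g ∈ S, star g ∈ S) (l : ∀ g ∈ S, g ∈ M) : ∀ X ∈ vn S, X ∈ M := fun X m => by
  rw [← VonNeumannAlgebra.commutant_commutant M, VonNeumannAlgebra.mem_commutant_iff]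
  exact fun Z z => mem_vn.1 m Z ((mem_cmt h).2 fun g a =>
    VonNeumannAlgebra.mem_commutant_iff.1 z g (l g a))

theorem vn_sub (h : ∀ g ∈ S, star g ∈ S) : ∀ g ∈ S, g ∈ vn S := fun g a =>
  mem_vn.2 fun _ z => ((mem_cmt h).1 z g a).symm

theorem vn_gam (g : Γ * Γ = 1) (h : ∀ g ∈ S, star g ∈ S) (l : ∀ X ∈ S, Γ * X * Γ ∈ S) :
    ∀ X ∈ vn S, Γ * X * Γ ∈ vn S := fun X m => by
  obtain ⟨Y, y, e⟩ := vn_cov h h Γ Γ g g (fun Z z => ⟨_, l Z z, by rw [mul_assoc, g, mul_one]⟩) X m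
  rwa [← e, mul_assoc, g, mul_one]

theorem cg (g : Γ * Γ = 1) (l : ∀ X ∈ M, Γ * X * Γ ∈ M) :
    ∀ X ∈ M.commutant, Γ * X * Γ ∈ M.commutant := fun X m =>
  VonNeumannAlgebra.mem_commutant_iff.2 fun Y y => by
    have gg (x : H →L[ℂ] H) : Γ * (Γ * x) = x := by rw [← mul_assoc, g, one_mul]
    have := congrArg (fun x => Γ * x * Γ) (VonNeumannAlgebra.mem_commutant_iff.1 m _ (l Y y))
    simpa only [mul_assoc, gg, g, mul_one] using this

end vn

variable {D : Type*} [NormedAddCommGroup D] [InnerProductSpace ℂ D] (c : Cg D)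

/-- graded locality for all wedges -/
theorem tw {a b : V} (y : V) (ha : IsNull a) (hb : IsNull b) (hab : 0 < GF.mdot a b) :
    ∀ X ∈ c.N (Wdg b a y), X + c.Γ * X * c.Γ ∈ (c.N (Wdg a b y)).commutant ∧
      (X - c.Γ * X * c.Γ) * c.Γ ∈ (c.N (Wdg a b y)).commutant := fun X hX => by
  have t := (e0_thm c).sg
  obtain ⟨L, hL, e⟩ := JCa.trans ha hb hab
  let g : Sh c := ⟨⟨1, L, y, one_pos, hL⟩, false⟩
  have u := t.uni g
  have a0 (Y) : Y ∈ c.N W0 ↔ _ := t.alg g W0 Y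
  have a1 (Y) : Y ∈ c.N W1 ↔ _ := t.alg g W1 Y
  rw [show g.act '' W0 = _ from (e y).1] at a0
  rw [show g.act '' W1 = _ from (e y).2] at a1
  have k : g.U c * (star (g.U c) * X * g.U c) * star (g.U c) = X := by
    rw [← mul_assoc, ← mul_assoc, u.2, one_mul, mul_assoc, u.2, mul_one]
  have l := c.hN.loc va vb _ Grp.na Grp.nb Grp.nab ((a1 _).2 (k.symm ▸ hX))
  have k2 : c.Γ * star (g.U c) = star (g.U c) * c.Γ := t.U_inv g ▸ t.gU g.inv
  have k1 (Y) : g.U c * (c.Γ * Y) = c.Γ * (g.U c * Y) := by rw [← mul_assoc, ← t.gU, mul_assoc]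
  have k3 (Y) : g.U c * (star (g.U c) * Y) = Y := by rw [← mul_assoc, u.2, one_mul]
  have k4 : g.U c * star (g.U c) = 1 := u.2
  have := l.imp (JCb.comm_conj u a0 _).1 (JCb.comm_conj u a0 _).1
  simpa only [mul_add, add_mul, mul_sub, sub_mul, mul_assoc, k1, k3, k4, mul_one] using this

/-- the algebras of the diamonds with tips in `O` -/
def S (O : Set V) : Set (Completion D →L[ℂ] Completion D) :=
  {X | ∃ p ∈ O, ∃ q ∈ O, Cl (q - p) ∧ X ∈ c.N (Dm p q)}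

theorem s_star (O : Set V) : ∀ X ∈ S c O, star X ∈ S c O := fun _ ⟨p, a, q, b, h, m⟩ =>
  ⟨p, a, q, b, h, star_mem m⟩

theorem s_gam (O : Set V) : ∀ X ∈ vn (S c O), c.Γ * X * c.Γ ∈ vn (S c O) :=
  vn_gam (e0_thm c).sg.g2 (s_star c O) fun _ ⟨p, a, q, b, h, m⟩ => ⟨p, a, q, b, h, c.hN.gam _ _ m⟩

theorem kl {O : Set V} {M : VonNeumannAlgebra (Completion D)} (n : ∀ X ∈ M, c.Γ * X * c.Γ ∈ M)
    (h : ∀ X ∈ S c O, X + c.Γ * X * c.Γ ∈ M ∧ (X - c.Γ * X * c.Γ) * c.Γ ∈ M) :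
    ∀ X ∈ vn (S c O), X + c.Γ * X * c.Γ ∈ M ∧ (X - c.Γ * X * c.Γ) * c.Γ ∈ M := fun X m =>
  have t := (e0_thm c).sg
  (kl_iff t.g2 t.gs n).1 (vn_le (s_star c O) (fun Y y => (kl_iff t.g2 t.gs n).2 (h Y y)) X m)

theorem loc {O O' : Set V} (s : Df.Spc O O') : ∀ X ∈ vn (S c O),
    X + c.Γ * X * c.Γ ∈ (vn (S c O')).commutant ∧
      (X - c.Γ * X * c.Γ) * c.Γ ∈ (vn (S c O')).commutant :=
  kl c (cg (e0_thm c).sg.g2 (s_gam c O')) fun X ⟨p, a, q, b, h, m⟩ => by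
    simp only [vn_comm, mem_cmt (s_star c O'), ← forall₂_and]
    rintro Y ⟨p', a', q', b', h', m'⟩
    obtain ⟨u, v, y, hu, hv, uv, e, e'⟩ := sep h h' (s p a q' b') (s q b p' a')
    exact (tw c y hu hv uv X (c.hN.mono _ _ e X m)).imp
      (fun k => VonNeumannAlgebra.mem_commutant_iff.1 k Y (c.hN.mono _ _
        (fun x k => e' x (fun a z => (k.1 a z).le) fun a z => (k.2 a z).le) Y m'))
      fun k => VonNeumannAlgebra.mem_commutant_iff.1 k Y (c.hN.mono _ _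
        (fun x k => e' x (fun a z => (k.1 a z).le) fun a z => (k.2 a z).le) Y m')

/-- the operators that are local relative to the neighbourhood of every point of `K` -/
def Ak (K : Set V) : Set (Completion D →L[ℂ] Completion D) :=
  {Y | ∀ y ∈ K, ∃ U, IsOpen U ∧ y ∈ U ∧ Y ∈ (c.N U).commutant}

theorem a_star (K : Set V) : ∀ X ∈ Ak c K, star X ∈ Ak c K := fun _ h y k =>
  (h y k).imp fun _ m => ⟨m.1, m.2.1, star_mem m.2.2⟩

theorem a_wk {B B' : Fld D} {f : Fn} (hB : c.Q.fld B) (a : Df.IsAdj B B') (hf : In Set.univ f) :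
    ∀ Z ∈ vn (Ak c (tsupport f)), Df.Wk Z (B f) (B' (bar f)) := fun Z z v w => by
  obtain ⟨C, hC, b⟩ := c.Q.adj B hB
  rw [show B' (bar f) w = C (bar f) w from
    ext_inner_left ℂ fun u => (a f u w hf.1).symm.trans (b f u w hf.1)]
  have an : ∀ {U U' : Set V}, U ⊆ U' → ∀ Y ∈ (c.N U').commutant, Y ∈ (c.N U).commutant :=
    fun e Y y => VonNeumannAlgebra.mem_commutant_iff.2 fun X x =>
      VonNeumannAlgebra.mem_commutant_iff.1 y X (c.hN.mono _ _ e X x)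
  refine LiftAux.dns2 (Ak c (tsupport f)) (fun y _ => ⟨_, isOpen_univ, trivial, one_mem _⟩)
    (fun Y h Y' h' y k => ?_) (a_star c _) Z
    (fun x k => mem_vn.1 z x ((mem_cmt (a_star c _)).2 k)) _ _ _ _ fun Y h => ?_
  · obtain ⟨U, a1, a2, a3⟩ := h y k
    obtain ⟨U', b1, b2, b3⟩ := h' y k
    exact ⟨U ∩ U', a1.inter b1, ⟨a2, b2⟩,
      mul_mem (an Set.inter_subset_left Y a3) (an Set.inter_subset_right Y' b3)⟩
  · exact E.Ca.al hf.2.1 (fun y k => (h y k).imp fun U m => ⟨m.1, m.2.1, fun A A' g p q r =>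
      (afs_of_aff (fun v w => q g v w r.1) (c.hN.fld U A g p r)).2 Y m.2.2⟩)
      (.fld B C f _ _ hB hC b ⟨hf.1, hf.2.1, subset_rfl⟩ .one) v w

theorem rel {O K : Set V} (s : Df.Spc O K) : ∀ X ∈ vn (S c O),
    X + c.Γ * X * c.Γ ∈ vn (Ak c K) ∧ (X - c.Γ * X * c.Γ) * c.Γ ∈ vn (Ak c K) :=
  have g := (e0_thm c).sg.g2
  kl c (vn_gam g (a_star c K) fun X h y k =>
    (h y k).imp fun U m => ⟨m.1, m.2.1, cg g (c.hN.gam U) X m.2.2⟩) fun X ⟨p, a, q, b, h, m⟩ => by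
    have k : ∀ y ∈ K, ∃ U, IsOpen U ∧ y ∈ U ∧ X + c.Γ * X * c.Γ ∈ (c.N U).commutant ∧
        (X - c.Γ * X * c.Γ) * c.Γ ∈ (c.N U).commutant := fun y z => by
      have o : Cl (y - y) := fun a _ => by rw [md_sub, sub_self]
      obtain ⟨u, v, x, hu, hv, uv, e, e'⟩ := sep h o (s p a y z) (s q b y z)
      exact ⟨_, EB.open_Wdg _ _ _, e' y o o, tw c x hu hv uv X (c.hN.mono _ _ e X m)⟩
    exact ⟨vn_sub (a_star c K) _ fun y z => (k y z).imp fun _ m => ⟨m.1, m.2.1, m.2.2.1⟩,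
      vn_sub (a_star c K) _ fun y z => (k y z).imp fun _ m => ⟨m.1, m.2.1, m.2.2.2⟩⟩

theorem cov (g : Sh c) (O : Set V) : ∀ X ∈ vn (S c O),
    ∃ Y ∈ vn (S c (g.act '' O)), Y * g.U c = g.U c * X :=
  have t := (e0_thm c).sg
  vn_cov (s_star c _) (s_star c _) _ _ (t.uni g).2 (t.uni g).1 fun X ⟨p, a, q, b, h, m⟩ =>
    ⟨_, ⟨_, ⟨p, a, rfl⟩, _, ⟨q, b, rfl⟩, cl_act _ h, c.hN.mono _ _ (by
      rintro _ ⟨x, k, rfl⟩
      exact ⟨tl_act _ k.1, tl_act _ k.2⟩) _ ((t.alg g _ X).1 m)⟩, by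
      rw [mul_assoc, (t.uni g).1, mul_one]⟩

theorem cyc : Dense {z | ∃ O, Df.Reg O ∧ ∃ X ∈ vn (S c O), z = X (om c.Q)} := by
  have n : ∀ t : ℝ, |t| < 1 → bas o t ∈ Metric.ball (0 : V) 1 := fun t h =>
    mem_ball_zero_iff.2 ((pi_norm_lt_iff one_pos).2 fun i => by
      unfold bas
      split_ifs
      exacts [h, norm_zero.trans_lt one_pos])
  refine (SGx.rs (c := c) (O := Metric.ball 0 (1 / 8)) Metric.isOpen_ball
    (Metric.nonempty_ball.2 (by norm_num))).mono ?_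
  rintro _ ⟨X, m, rfl⟩
  refine ⟨_, ⟨Metric.isOpen_ball, Metric.isBounded_ball⟩, X, vn_sub (s_star c _) X
    ⟨_, n (-(1 / 2)) (by norm_num [abs_of_pos]), _, n (1 / 2) (by norm_num [abs_of_pos]),
      fun a z => (tl_of (by simp [bas, o]) a z).le, c.hN.mono _ _ (fun x k => ?_) X m⟩, rfl⟩
  have k := (pi_norm_lt_iff (by norm_num)).1 (mem_ball_zero_iff.1 k)
  have k0 := abs_lt.1 (k 0)
  have k1 : |x 1| < 1 / 8 := k 1
  have k2 : |x 2| < 1 / 8 := k 2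
  have k3 : |x 3| < 1 / 8 := k 3
  refine ⟨tl_of ?_, tl_of ?_⟩ <;> simp [bas, o] <;> linarith [k0.1, k0.2]

end

end Cv

open P352.GF UniformSpace in
/-- **A graded local net gives a relatively local net.** -/
theorem rnb_of {D : Type*} [NormedAddCommGroup D] [InnerProductSpace ℂ D] {Q : Theory D}
    {G : D → D} {A : (V → V) → D → D} {Γ : Completion D →L[ℂ] Completion D}
    {N : Set V → VonNeumannAlgebra (Completion D)} (h : Df.LNg Q G A Γ N) :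
    ∃ N', Df.RNb Q G A Γ N' :=
  let c : P352X.EG.Cg D := ⟨Q, G, A, Γ, N, P352R.Br.lng.1 (Bg.lng.1 h)⟩
  ⟨fun O => P352W.Net.vn (Cv.S c O), h.toGe, h.ext,
    fun _ _ _ _ e => P352W.Net.vn_mono (Cv.s_star c _) (Cv.s_star c _)
      fun _ ⟨p, a, q, b, m⟩ => ⟨p, e a, q, e b, m⟩,
    fun s L y O _ X m hs hL => (Cv.cov c ⟨⟨s, L, y, hs, hL⟩, false⟩ O X m).imp fun Y k =>
      ⟨k.1, fun z => by
        have e := P352X.Ug_apply Q hs hL y
        exact ((congrArg Y (e z)).symm.trans (DFunLike.congr_fun k.2 z)).trans (e _)⟩,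
    fun O _ => Cv.s_gam c O, fun _ _ _ _ s => Cv.loc c s,
    fun _ _ _ _ _ hB a hf s X m =>
      (Cv.rel c s X m).imp (Cv.a_wk c hB a hf _) (Cv.a_wk c hB a hf _), Cv.cyc c⟩

end Vale.Agent.N352.Rn
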