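import Vale.Agent.N352.Rn.Vb

/-!
# N352, block Rn: the argument of Reeh and Schlieder for wedges (helper79)
-/

set_option linter.all false

open Filter Topology

namespace Vale.Agent.N352.Rn

open Vale.Agent.P352 Vale.Agent.P352.GF Vale.Agent.P352.BW Vale.Agent.P352.H246
open Vale.Agent.P352.H496 Vale.Agent.P352.H755 Vale.Agent.P352.H15
open Vale.Agent.P352X
open UniformSpace (Completion)

noncomputable section

variable {D : Type*} [NormedAddCommGroup D] [InnerProductSpace ℂ D]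

theorem ug_coe (Q : Theory D) (y : V) (v : D) :
    Ug Q 1 GF.one y (v : Completion D) = (Q.U 1 GF.one y v : D) :=
  (Ug_apply Q one_pos H496.isLor_one y _).trans (ue_coe one_pos H496.isLor_one y v)

theorem ug_nrm (Q : Theory D) (y : V) (z : Completion D) : ‖Ug Q 1 GF.one y z‖ = ‖z‖ :=
  (congrArg norm (Ug_apply Q one_pos H496.isLor_one y z)).trans
    ((ueC Q one_pos H496.isLor_one y).norm_map z)

theorem ug_zero (Q : Theory D) (z : Completion D) : Ug Q 1 GF.one 0 z = z :=
  Completion.induction_on z (isClosed_eq (ContinuousLinearMap.continuous _) continuous_id)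
    fun v => (ug_coe Q 0 v).trans (congrArg _ (U1_zero_all (Q := Q) v))

theorem hol_ug (Q : Theory D) (p q : Completion D) :
    H246.Hol fun a => inner ℂ p (Ug Q 1 GF.one a.ofLp q) := by
  refine ⟨0, LineHol.lim fun ε hε => ?_⟩
  obtain ⟨v, hv⟩ := exists_coe q (ε := ε / 2 / (‖p‖ + 1)) (by positivity)
  obtain ⟨z, hz⟩ := exists_coe p (ε := ε / 2 / (‖v‖ + 1)) (by positivity)
  refine ⟨fun a => inner ℂ z (H246.U1 Q a v), lineHol_inner z v, fun a => ?_⟩
  have e : inner ℂ p (Ug Q 1 GF.one a.ofLp q) - inner ℂ z (H246.U1 Q a v) =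
      inner ℂ p (Ug Q 1 GF.one a.ofLp (q - v)) +
        inner ℂ (p - z) (Ug Q 1 GF.one a.ofLp (v : Completion D)) := by
    rw [map_sub, inner_sub_right, inner_sub_left, ug_coe, Completion.inner_coe]
    ring
  have h1 := norm_inner_le_norm (𝕜 := ℂ) p (Ug Q 1 GF.one a.ofLp (q - v))
  have h2 := norm_inner_le_norm (𝕜 := ℂ) (p - z) (Ug Q 1 GF.one a.ofLp (v : Completion D))
  rw [ug_nrm] at h1 h2
  rw [Completion.norm_coe] at h2
  rw [lt_div_iff₀ (by positivity)] at hv hz
  show ‖inner ℂ p (Ug Q 1 GF.one a.ofLp q) - inner ℂ z (H246.U1 Q a v)‖ ≤ _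
  rw [e, pow_zero, mul_one]
  refine (norm_add_le _ _).trans ?_
  nlinarith [norm_nonneg (q - v), norm_nonneg (p - z)]

/-- a function that vanishes for the translations into a wedge vanishes for all translations -/
theorem rs' (Q : Theory D) {a b : V} {O : Set V} (ha : IsNull a) (hb : IsNull b)
    (hab : GF.mdot a b = 1) (hO : Bornology.IsBounded O) (p q : Completion D)
    (h : ∀ y, sim 1 GF.one y '' O ⊆ Wdg a b 0 → inner ℂ p (Ug Q 1 GF.one y q) = 0) (y : V) :
    inner ℂ p (Ug Q 1 GF.one y q) = 0 := by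
  have c : ∀ e : V, Continuous fun x : V => GF.mdot e x := fun e => by
    unfold GF.mdot
    fun_prop
  have bd : ∀ e : V, ∃ C, ∀ x ∈ O, |GF.mdot e x| ≤ C := fun e => by
    obtain ⟨C, hC⟩ := (hO.isCompact_closure.image (c e)).isBounded.exists_norm_le
    exact ⟨C, fun x hx => hC _ ⟨x, subset_closure hx, rfl⟩⟩
  obtain ⟨A, hA⟩ := bd a
  obtain ⟨B, hB⟩ := bd b
  have l : ∀ e x z : V, GF.mdot e (x + z) = GF.mdot e x + GF.mdot e z := fun e x z => by
    simp only [GF.mdot, Pi.add_apply, mul_add, Finset.sum_add_distrib]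
  have m : ∀ (e x : V) (t : ℝ), GF.mdot e (t • x) = t * GF.mdot e x := fun e x t => by
    simp only [GF.mdot, Pi.smul_apply, smul_eq_mul, Finset.mul_sum]
    exact Finset.sum_congr rfl fun _ _ => by ring
  refine (hol_ug Q p q).unique (O := {x | GF.mdot a x.ofLp < -A ∧ B < GF.mdot b x.ofLp})
    ((isOpen_lt ((c a).comp (PiLp.continuous_ofLp 2 _)) continuous_const).inter
      (isOpen_lt continuous_const ((c b).comp (PiLp.continuous_ofLp 2 _))))
    ⟨WithLp.toLp 2 ((B + 1) • a + (-A - 1) • b), ?_, ?_⟩ (fun x hx => h _ ?_) (WithLp.toLp 2 y)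
  · rw [l, m, m, ha.1, hab]
    linarith
  · rw [l, m, m, hb.1, mdot_comm'' b a, hab]
    linarith
  rintro _ ⟨z, hz, rfl⟩
  have e : sim 1 GF.one x.ofLp z - 0 = x.ofLp + z := by
    funext n
    simp [sim, GF.one, bas]
  refine ⟨?_, ?_⟩
  · rw [e, l]
    linarith [hx.1, (abs_le.1 (hA z hz)).2]
  · rw [e, l]
    linarith [hx.2, (abs_le.1 (hB z hz)).1]

/-- **Reeh and Schlieder** -/
theorem rs (Q : Theory D) {a b : V} {O : Set V} (ha : IsNull a) (hb : IsNull b)
    (hab : GF.mdot a b = 1) (hO : Bornology.IsBounded O) (p q : Completion D)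
    (h : ∀ y, sim 1 GF.one y '' O ⊆ Wdg a b 0 → inner ℂ p (Ug Q 1 GF.one y q) = 0) :
    inner ℂ p q = 0 := by
  rw [← ug_zero Q q]
  exact rs' Q ha hb hab hO p q h 0

end

end Vale.Agent.N352.Rn
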