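import Vale.Agent.N352.Rn.Bw
import Vale.Agent.N352.Rn.Rs
import Vale.Agent.P352R.Tw.Kl
import Vale.Agent.P352X.R.JC.A2
import Vale.Agent.P352.BW.H820.Tk0

/-!
# N352, block Rn: duality for relatively local nets
-/

set_option linter.all false

open Filter Topology
open scoped ComplexConjugate

namespace Vale.Agent.N352.Rn

open Vale.Agent.P352 Vale.Agent.P352.GF Vale.Agent.P352.BW Vale.Agent.P352.H246
open Vale.Agent.P352.H496 Vale.Agent.P352.H755 Vale.Agent.P352.H15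
open Vale.Agent.P352X Vale.Agent.P352X.EB E P352W.Net P352R.Tw
open Vale.Agent.P352.SubConf (IsAdj)
open Vale.Agent.P352X.EG.Bws (lor bq_inv)
open UniformSpace (Completion)

noncomputable section

section abs

variable {H : Type*} [NormedAddCommGroup H] [InnerProductSpace ℂ H] [CompleteSpace H]
  {S S' : Set (H →L[ℂ] H)} {u X : H →L[ℂ] H}

theorem dns_of (M : VonNeumannAlgebra H) (ξ : H)
    (h : ∀ p, (∀ X ∈ M, inner ℂ p (X ξ) = 0) → p = 0) : Dense {z | ∃ X ∈ M, X ξ = z} :=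
  (Submodule.dense_iff_topologicalClosure_eq_top (s := M.toStarSubalgebra.toSubalgebra.toSubmodule.map
    (ContinuousLinearMap.apply ℂ H ξ).toLinearMap)).2 (Submodule.topologicalClosure_eq_top_iff.2
      (eq_bot_iff.2 fun p hp => h p fun X hX => (Submodule.mem_orthogonal' _ _).1 hp _ ⟨X, hX, rfl⟩))

theorem cnj (hu : u ∈ unitary (H →L[ℂ] H)) (X : H →L[ℂ] H) : u * (star u * X * u) * star u = X := by
  rw [← mul_assoc, ← mul_assoc, hu.2, one_mul, mul_assoc, hu.2, mul_one]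

theorem vn_cj (h : ∀ g ∈ S, star g ∈ S) (h' : ∀ g ∈ S', star g ∈ S')
    (hu : u ∈ unitary (H →L[ℂ] H)) (e : ∀ Z ∈ S, u * Z * star u ∈ S') (hX : X ∈ vn S) :
    u * X * star u ∈ vn S' := by
  obtain ⟨Y, a, b⟩ := vn_cov h h' u (star u) hu.2 hu.1
    (fun Z z => ⟨_, e Z z, by rw [mul_assoc, hu.1, mul_one]⟩) X hX
  rwa [← b, mul_assoc, hu.2, mul_one]

theorem cmt_cj (h : ∀ g ∈ S, star g ∈ S) (h' : ∀ g ∈ S', star g ∈ S')
    (hu : u ∈ unitary (H →L[ℂ] H)) (e : ∀ Z ∈ S', star u * Z * u ∈ S) (hX : X ∈ cmt S) :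
    u * X * star u ∈ cmt S' := (mem_cmt h').2 fun Z z => by
  have := congrArg (u * · * star u) ((mem_cmt h).1 hX _ (e Z z))
  simp only [← mul_assoc, hu.2, one_mul] at this
  rw [← mul_assoc, ← mul_assoc, this, mul_assoc _ u, hu.2, mul_one]

end abs

universe u

variable {D : Type u} [NormedAddCommGroup D] [InnerProductSpace ℂ D] {c : Cf D}
  {N : Set V → VonNeumannAlgebra (Completion D)} {u X Y : Completion D →L[ℂ] Completion D}
  {K K' O : Set V} {a b : V}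

/-- regions -/
def Rg (O : Set V) : Prop := IsOpen O ∧ Bornology.IsBounded O

theorem Rg.img (h : Rg O) (g : Sh c) : Rg (g.act '' O) :=
  ⟨by
    rw [Set.image_eq_preimage_of_inverse g.toSg.inv_act g.toSg.act_inv]
    exact h.1.preimage g.toSg.inv.cont, EG.SGx.bdd _ _ h.2⟩

theorem Rg.cl (h : Rg O) (g : Sh c) : closure (g.act '' O) ⊆ g.act '' closure O :=
  closure_minimal (Set.image_mono subset_closure)
    (h.2.isCompact_closure.image g.toSg.cont).isClosed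

variable (c) in
/-- the twist -/
abbrev kt : Completion D →L[ℂ] Completion D := kz (-1) c.Γ

variable (c N) in
/-- relatively local nets -/
structure RN : Prop where
  mono : ∀ O O', Rg O → Rg O' → O ⊆ O' → ∀ X ∈ N O, X ∈ N O'
  alg : ∀ (g : Sh c) O, Rg O → ∀ X ∈ N O, g.U c * X * star (g.U c) ∈ N (g.act '' O)
  loc : ∀ O O', Rg O → Rg O' → O ⊆ W1 → O' ⊆ W0 → ∀ X ∈ N O,
    kt c * X * star (kt c) ∈ (N O').commutant
  rel : ∀ O B B' f, Rg O → c.Q.fld B → IsAdj B B' → In (cc (closure O)) f → ∀ X ∈ N O, ∀ v w : D,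
    inner ℂ (B' (bar f) w : Completion D) ((kt c * X * star (kt c)) v) =
      inner ℂ (w : Completion D) ((kt c * X * star (kt c)) (B f v : D))
  cyc : Dense {z | ∃ O, Rg O ∧ ∃ X ∈ N O, z = X c.Om}

variable (c) in
/-- invariant unitaries -/
def Cu (u : Completion D →L[ℂ] Completion D) : Prop :=
  u ∈ unitary (Completion D →L[ℂ] Completion D) ∧ ∀ g : Sh c, u * g.U c = g.U c * u

theorem cu1 : Cu c 1 := ⟨one_mem _, fun _ => by rw [one_mul, mul_one]⟩

theorem cuk : Cu c (kt c) := ⟨by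
  rw [Unitary.mem_iff, kz_star' (SGx.gs c)]
  exact ⟨kz1 (SGx.g2 c), kz2 (SGx.g2 c)⟩, fun g => kz_cm (SGx.gU g)⟩

variable (N u K) in
/-- the twisted local operators in `K` -/
def Sx : Set (Completion D →L[ℂ] Completion D) :=
  {Y | ∃ O, Rg O ∧ closure O ⊆ K ∧ ∃ X ∈ N O, u * X * star u = Y}

theorem Sx.st : ∀ Y ∈ Sx N u K, star Y ∈ Sx N u K := by
  rintro _ ⟨O, a, b, X, d, rfl⟩
  exact ⟨O, a, b, star X, star_mem d, by simp only [star_mul, star_star, mul_assoc]⟩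

theorem Sx.mono (h : K ⊆ K') : Sx N u K ⊆ Sx N u K' :=
  fun _ ⟨O, a, b, d⟩ => ⟨O, a, b.trans h, d⟩

theorem Sx.vn (h : Y ∈ Sx N u K) : Y ∈ vn (Sx N u K) :=
  mem_vn.2 fun Z z => ((mem_cmt Sx.st).1 z Y h).symm

theorem ccc : O ⊆ cc (cc O) := fun x hx y hy => by
  have := hy x hx
  rwa [← neg_sub, ← mu, mu_neg] at this

theorem cc_anti (h : K ⊆ K') : cc K' ⊆ cc K := fun _ hx y hy => hx y (h hy)

theorem cc_img (g : Sh c) : cc (g.act '' O) ⊆ g.act '' cc O := fun y hy => by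
  refine ⟨g.inv.act y, fun x hx => ?_, g.toSg.act_inv y⟩
  have := hy _ ⟨x, hx, rfl⟩
  have k := conf_sim g.hs g.hL
  rw [← g.toSg.act_inv y, Sg.act, sim_zero, sim_zero g.a, add_sub_add_right_eq_sub,
    ← k.lin.map_sub, k.md] at this
  exact neg_of_mul_neg_right this k.pos.le

theorem wcc (ha : IsNull a) (hb : IsNull b) : Wdg a b 0 ⊆ cc (Wdg b a 0) :=
  fun _ hx _ hy => Ap.wdg_opp hb ha hy hx

variable (r : RN c N)
include r

theorem sx_cj (h : Cu c u) (g : Sh c) (e : g.act '' K ⊆ K') :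
    ∀ Y ∈ Sx N u K, g.U c * Y * star (g.U c) ∈ Sx N u K' := by
  rintro _ ⟨O, a, b, X, d, rfl⟩
  refine ⟨_, a.img g, (a.cl g).trans ((Set.image_mono b).trans e), _, r.alg g O a X d, ?_⟩
  rw [← mul_assoc, ← mul_assoc, h.2, mul_assoc, ← star_mul, h.2, star_mul]
  simp only [mul_assoc]

theorem v_cj (h : Cu c u) (g : Sh c) (e : g.act '' K ⊆ K') (hX : X ∈ vn (Sx N u K)) :
    g.U c * X * star (g.U c) ∈ vn (Sx N u K') := vn_cj Sx.st Sx.st (SGx.uni g) (sx_cj r h g e) hX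

theorem c_cj (h : Cu c u) (g : Sh c) (e : K' ⊆ g.act '' K) (hX : X ∈ cmt (Sx N u K)) :
    g.U c * X * star (g.U c) ∈ cmt (Sx N u K') :=
  cmt_cj Sx.st Sx.st (SGx.uni g) (fun Z z => by
    simpa only [SGx.U_inv, star_star] using sx_cj r h g.inv (by
      rintro _ ⟨y, hy, rfl⟩
      obtain ⟨x, hx, rfl⟩ := e hy
      exact (g.toSg.inv_act x).symm ▸ hx) Z z) hX

/-- affiliation -/
theorem afs {B B' : Fld D} {f : Fn} (hB : c.Q.fld B) (ad : IsAdj B B') (hf : In (cc K) f) :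
    T.Afs (cmt (Sx N (kt c) K)) (B f) (B' (bar f)) := by
  refine EG.bic_row D (Sx N (kt c) K) _ _ _ ⟨∅, ⟨isOpen_empty, Bornology.isBounded_empty⟩,
    closure_empty.le.trans (Set.empty_subset _), 1, one_mem _, by rw [mul_one, cuk.1.2]⟩ ?_ Sx.st
    (fun x h => (mem_cmt Sx.st).2 h) (fun v w => ad f v w hf.1) ?_
  · rintro _ ⟨O, a, b, X, d, rfl⟩ _ ⟨O', a', b', X', d', rfl⟩
    have k : Rg (O ∪ O') := ⟨a.1.union a'.1, a.2.union a'.2⟩
    refine ⟨_, k, closure_union.le.trans (Set.union_subset b b'), X * X', mul_mem (r.mono _ _ a k Set.subset_union_left X d)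
      (r.mono _ _ a' k Set.subset_union_right X' d'), ?_⟩
    rw [mul_assoc _ (star _), ← mul_assoc (star _), ← mul_assoc (star _), cuk.1.1]
    simp only [mul_assoc, one_mul]
  · rintro _ ⟨O, a, b, X, d, rfl⟩
    exact r.rel O B B' f a hB ad ⟨hf.1, hf.2.1, hf.2.2.trans (cc_anti b)⟩ X d

/-- cyclicity for wedges -/
theorem cw (ha : IsNull a) (hb : IsNull b) (hab : GF.mdot a b = 1) :
    Dense {z | ∃ X ∈ vn (Sx N 1 (Wdg a b 0)), X c.Om = z} := dns_of _ _ fun p hp => by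
  refine ext_inner_right ℂ fun z => ?_
  rw [inner_zero_left]
  refine r.cyc.induction (P := fun z => inner ℂ p z = 0) ?_
    (isClosed_eq (by fun_prop) continuous_const) z
  rintro _ ⟨O, o, X, d, rfl⟩
  refine rs c.Q ha hb hab o.2.closure p _ fun y hy => ?_
  let g : Sh c := ⟨⟨1, GF.one, y, one_pos, H496.isLor_one⟩, false⟩
  have := hp _ (Sx.vn ⟨_, o.img g, (o.cl g).trans hy, _, r.alg g O o X d, rfl⟩)
  rw [star_one, mul_one, one_mul, ContinuousLinearMap.mul_apply, ((sg_row c).vac g).2] at this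
  exact this

omit r in
theorem im1 (s : ℝ) : (gb c s).act '' W1 ⊆ W1 := by
  have := T.H732W.bq_wdg null_vb null_va (by rw [md_comm]; exact md_ab) (-s)
  rwa [T.s_bq_swap va vb, neg_neg] at this

theorem tw_vn (hX : X ∈ vn (Sx N 1 K)) : kt c * X * star (kt c) ∈ vn (Sx N (kt c) K) :=
  vn_cj Sx.st Sx.st cuk.1 (by
    rintro _ ⟨O, a, b, X, d, rfl⟩
    exact ⟨O, a, b, X, d, by rw [star_one, mul_one, one_mul]⟩) hX

variable (m : MfAll c.Q)
include m

/-- **duality** -/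
theorem d0 : ∀ X ∈ cmt (Sx N (kt c) W1), X ∈ vn (Sx N 1 W0) := by
  have le : ∀ X ∈ vn (Sx N 1 W0), X ∈ cmt (Sx N (kt c) W1) := fun X hX => by
    rw [← vn_comm]
    refine vn_loc Sx.st Sx.st ?_ X hX
    rintro _ ⟨O, a, b, X, d, rfl⟩ _ ⟨O', a', b', X', d', rfl⟩
    rw [star_one, mul_one, one_mul]
    exact VonNeumannAlgebra.mem_commutant_iff.1 (r.loc O' O a' a (subset_closure.trans b')
      (subset_closure.trans b) X' d') X d
  have c0 := cw r null_va null_vb md_ab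
  obtain ⟨E⟩ := P132.exists_modData (cmt (Sx N (kt c) W1)) c.Om
    ((Completion.norm_coe _).trans c.Q.norm_vac) (c0.mono fun _ h => h.imp fun X k => ⟨le X k.1, k.2⟩)
    fun Y hY e => by
      have k : Y * kt c = 0 := ContinuousLinearMap.ext fun z => by
        refine (cw r null_vb null_va (by rw [md_comm]; exact md_ab)).induction
          (P := fun z => (Y * kt c) z = 0) ?_ (isClosed_eq (by fun_prop) continuous_const) z
        rintro _ ⟨X, a, rfl⟩
        have := DFunLike.congr_fun (mem_vn.1 (tw_vn r a) Y hY) c.Om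
        simp only [ContinuousLinearMap.mul_apply, e, map_zero, kz_star' (SGx.gs c),
          kz_fix (SGx.gv c)] at this
        exact this
      rw [← mul_one Y, ← (cuk (c := c)).1.2, ← mul_assoc, k, zero_mul]
  obtain ⟨u, ι, X, X', y, a1, a2, a3, a4⟩ := bw m
  have af : ∀ X X', Al c.Q W0 X X' → T.Afs (cmt (Sx N (kt c) W1)) X X' := fun X X' h => by
    induction h with
    | one => exact Grp.afs_one
    | add X X' Y Y' _ _ h1 h2 => exact Grp.afs_add h1 h2
    | smul z X X' _ h1 => exact Grp.afs_smul z h1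
    | fld B B' g X X' hB _ ad hg _ h1 => exact Grp.afs_comp (afs r hB ad
        ⟨hg.1, hg.2.1, hg.2.2.trans (wcc null_va null_vb)⟩) h1
  have vv : ∀ t X, Vb c t * X * star (Vb c t) = (gb c (t / 2)).U c * ((gb c (t / 2)).U c * X *
      star ((gb c (t / 2)).U c)) * star ((gb c (t / 2)).U c) := fun t X => by
    simp only [Vb, star_mul, mul_assoc]
  have i1 : ∀ s, W1 ⊆ (gb c s).act '' W1 := fun s x hx =>
    ⟨_, im1 (c := c) (-s) (Set.mem_image_of_mem _ hx), bq_inv (add_neg_cancel s) x⟩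
  have uq := u.uq E (Vb_vac c) (fun t X hX => ⟨_, vv t X ▸ c_cj r cuk _ (i1 _) (c_cj r cuk _ (i1 _) hX),
    fun z => by rw [← ContinuousLinearMap.mul_apply, mul_assoc, (Vb_uni c t).1, mul_one]; rfl⟩) a2
    (fun i => (T.m _ c.Q.vac E _ _).1 (af _ _ (a1 i))) a3 a4
  refine H820.le_of_inv E _ le (fun t X hX => ?_) c0
  have i0 := fun s => T.H732W.bq_wdg null_va null_vb md_ab s
  rw [P132.ModData.sg, ← E.star_U, uq, vv]
  exact v_cj r cu1 _ (i0 _) (v_cj r cu1 _ (i0 _) hX)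

theorem d1 (ha : IsNull a) (hb : IsNull b) (hab : GF.mdot a b = 1)
    (hX : X ∈ cmt (Sx N (kt c) (Wdg b a 0))) : X ∈ vn (Sx N 1 (Wdg a b 0)) := by
  obtain ⟨L, hL, e⟩ := JCa.trans ha hb (hab ▸ one_pos)
  let g : Sh c := ⟨⟨1, L, 0, one_pos, hL⟩, false⟩
  have := v_cj r cu1 g (e 0).1.le (d0 r m _ (c_cj r cuk g.inv (fun x hx =>
    ⟨_, (e 0).2.le ⟨x, hx, rfl⟩, g.toSg.inv_act x⟩) hX))
  rwa [SGx.U_inv, star_star, cnj (SGx.uni g)] at this

/-- **the dual net** -/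
theorem lng : LNg c.Q c.G c.A c.Γ fun O => cmt (Sx N (kt c) (cc O)) := by
  have gm : ∀ X, c.Γ * X * c.Γ = (Sh.gm c true).U c * X * star ((Sh.gm c true).U c) := fun X => by
    rw [((sg_row c).gm true).1, Cf.gp, cond_true, SGx.gs]
  have im : ∀ K, (Sh.gm c true).act '' K = K := fun K => by
    simp only [((sg_row c).gm true).2, Set.image_id']
  refine ⟨c.hN.toGr, c.hN.vac, c.hN.add, c.hN.der, c.hN.ext, fun O B f hB hf => ?_,
    fun O O' h X hX => (mem_cmt Sx.st).2 fun Z z => (mem_cmt Sx.st).1 hX Z (Sx.mono (cc_anti h) z),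
    fun s L y O X hX hs hL => ?_, fun O X hX => gm X ▸ c_cj r cuk _ (im _).ge hX,
    fun a b X ha hb hab hX => ?_⟩
  · obtain ⟨B', -, ad⟩ := c.Q.adj B hB
    exact ⟨_, afs r hB ad ⟨hf.1, hf.2.1, hf.2.2.trans ccc⟩⟩
  · let g : Sh c := ⟨⟨s, L, y, hs, hL⟩, false⟩
    refine ⟨_, c_cj r cuk g (cc_img g) hX, fun z => ?_⟩
    rw [← Ug_apply _ hs hL, ← Ug_apply _ hs hL, ← ContinuousLinearMap.mul_apply]
    exact DFunLike.congr_fun ((mul_assoc _ _ _).trans ((congrArg _ (SGx.uni g).1).trans (mul_one _))) z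
  · rw [← vn]
    refine (kl_iff (SGx.g2 c) (SGx.gs c) fun Y hY => gm Y ▸ v_cj r cuk _ (im _).le hY).1
      ((mem_kl (SGx.g2 c) (SGx.gs c)).2 ?_)
    rw [← kz_star' (SGx.gs c)]
    exact vn_mono Sx.st Sx.st (Sx.mono (wcc hb ha)) _ (tw_vn r (d1 r m hb ha
      (by rw [md_comm]; exact hab) ((mem_cmt Sx.st).2 fun Z z =>
        (mem_cmt Sx.st).1 hX Z (Sx.mono (wcc ha hb) z))))

end

end Vale.Agent.N352.Rn
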