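import Vale.Agent.P352X.EG.SST
import Vale.Agent.P352.BW.H48.ModU
import Vale.Agent.P352.BW.T.Wd911
import Vale.Agent.P352.Bdl.B1

/-!
# N352, block Rn: analytic continuation of products along a one parameter group
-/

set_option linter.all false

open MeasureTheory Filter Topology
open scoped ComplexConjugate

namespace Vale.Agent.N352.Rn

open Vale.Agent.P352 Vale.Agent.P352.BW Vale.Agent.P352.BW.H234U
open Vale.Agent.P352X.EG (Hol sst_bd)
open Vale.Agent.P132 (ModData)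
open Complex (I)

noncomputable section

section growth

variable {E : Type*} [NormedAddCommGroup E] [NormedSpace ℂ E]

/-- continuous functions of exponential growth -/
structure Eg (a : ℝ → E) : Prop where
  cont : Continuous a
  bd : ∃ C r : ℝ, 0 ≤ C ∧ 0 ≤ r ∧ ∀ s, ‖a s‖ ≤ C * Real.exp (r * |s|)

/-- the Gaussian -/
def gs (n : ℝ) (σ : ℂ) (s : ℝ) : ℂ := Complex.exp (-(n * (s - σ) ^ 2))

/-- Gaussian means -/
def Gs (n : ℝ) (a : ℝ → E) (σ : ℂ) : E := ∫ s, gs n σ s • a s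

variable {n : ℝ} {a : ℝ → E}

theorem gs_norm (σ : ℂ) (s : ℝ) : ‖gs n σ s‖ = Real.exp (-(n * ((s - σ.re) ^ 2 - σ.im ^ 2))) := by
  rw [gs, Complex.norm_exp]
  congr 1
  simp [pow_two]

theorem gs_conj (σ : ℂ) (s : ℝ) : conj (gs n σ s) = gs n (conj σ) s := by
  rw [gs, gs, ← Complex.exp_conj]
  simp

theorem gs_cont (σ : ℂ) : Continuous (gs n σ) := by
  unfold gs
  fun_prop

theorem gs_diff (s : ℝ) : Differentiable ℂ fun σ => gs n σ s := by
  unfold gs
  fun_prop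

theorem Eg.gb (h : Eg a) (hn : 0 < n) (R : ℝ) : ∃ K r : ℝ, 0 ≤ K ∧ 0 ≤ r ∧ ∀ (x : ℝ) (σ : ℂ) (s : ℝ),
    |σ.re - x| ≤ 1 → |σ.im| ≤ R →
      ‖gs n σ s • a s‖ ≤ K * Real.exp (r * |x|) * Real.exp (-(n / 2) * (s - x) ^ 2) := by
  obtain ⟨C, r, hC, hr, h⟩ := h.bd
  refine ⟨C * Real.exp (n * R ^ 2 + (2 * n + r) ^ 2 / (2 * n)), r, by positivity, hr,
    fun x σ s h1 h2 => ?_⟩
  rw [norm_smul, gs_norm]
  refine (mul_le_mul_of_nonneg_left (h s) (Real.exp_pos _).le).trans ?_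
  rw [mul_left_comm, mul_assoc C, mul_assoc C, ← Real.exp_add, ← Real.exp_add, ← Real.exp_add]
  refine mul_le_mul_of_nonneg_left (Real.exp_le_exp.2 ?_) hC
  obtain ⟨t, rfl⟩ : ∃ t, s = t + x := ⟨s - x, by ring⟩
  obtain ⟨d, hd⟩ : ∃ d, σ.re = d + x := ⟨σ.re - x, by ring⟩
  rw [hd, add_sub_cancel_right] at h1
  rw [hd, add_sub_cancel_right, show t + x - (d + x) = t - d by ring]
  have a1 : σ.im ^ 2 ≤ R ^ 2 := by rw [← sq_abs]; exact pow_le_pow_left₀ (abs_nonneg _) h2 2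
  have a2 : r * |t + x| ≤ r * |t| + r * |x| := by
    rw [← mul_add]; exact mul_le_mul_of_nonneg_left (abs_add_le _ _) hr
  have a3 : t * d ≤ |t| := (le_abs_self _).trans (by
    rw [abs_mul]; exact mul_le_of_le_one_right (abs_nonneg _) h1)
  have a4 : (2 * n + r) * |t| ≤ (2 * n + r) ^ 2 / (2 * n) + n / 2 * t ^ 2 := by
    rw [← sq_abs t, div_add' _ _ _ (by positivity), le_div_iff₀ (by positivity)]
    nlinarith [sq_nonneg (2 * n + r - n * |t|)]
  nlinarith [mul_le_mul_of_nonneg_left a1 hn.le, mul_le_mul_of_nonneg_left a3 hn.le,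
    mul_nonneg hn.le (sq_nonneg d)]

theorem gi (hn : 0 < n) (x : ℝ) : Integrable fun s : ℝ => Real.exp (-(n / 2) * (s - x) ^ 2) :=
  (integrable_exp_neg_mul_sq (half_pos hn)).comp_sub_right x

theorem Eg.ms (h : Eg a) (σ : ℂ) : AEStronglyMeasurable (fun s => gs n σ s • a s) volume :=
  ((gs_cont σ).smul h.cont).aestronglyMeasurable

theorem Eg.int (h : Eg a) (hn : 0 < n) (σ : ℂ) : Integrable fun s => gs n σ s • a s := by
  obtain ⟨K, r, -, -, k⟩ := h.gb hn |σ.im|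
  exact ((gi hn σ.re).const_mul _).mono' (h.ms σ)
    (.of_forall fun s => k σ.re σ s (by simp) le_rfl)

theorem Eg.gbd (h : Eg a) (hn : 0 < n) : ∃ K r : ℝ, 0 ≤ K ∧ 0 ≤ r ∧ ∀ σ : ℂ, |σ.im| ≤ 1 →
    ‖Gs n a σ‖ ≤ K * Real.exp (r * |σ.re|) := by
  obtain ⟨K, r, hK, hr, k⟩ := h.gb hn 1
  refine ⟨K * ∫ s : ℝ, Real.exp (-(n / 2) * s ^ 2), r,
    mul_nonneg hK (integral_nonneg fun s => (Real.exp_pos _).le), hr, fun σ hσ => ?_⟩
  refine (norm_integral_le_of_norm_le ((gi hn σ.re).const_mul _)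
    (.of_forall fun s => k σ.re σ s (by simp) hσ)).trans (le_of_eq ?_)
  rw [integral_const_mul, integral_sub_right_eq_self (fun s : ℝ => Real.exp (-(n / 2) * s ^ 2))]
  ring

theorem near {σ0 σ : ℂ} (h : σ ∈ Metric.ball σ0 1) :
    |σ.re - σ0.re| ≤ 1 ∧ |σ.im| ≤ |σ0.im| + 1 := by
  rw [Metric.mem_ball, dist_eq_norm] at h
  have a := (Complex.abs_re_le_norm (σ - σ0)).trans h.le
  have b := (Complex.abs_im_le_norm (σ - σ0)).trans h.le
  rw [Complex.sub_im] at b
  exact ⟨a, by linarith [abs_sub_abs_le_abs_sub σ.im σ0.im]⟩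

theorem Eg.gcont (h : Eg a) (hn : 0 < n) : Continuous (Gs n a) := by
  refine continuous_iff_continuousAt.2 fun σ0 => ?_
  obtain ⟨K, r, -, -, k⟩ := h.gb hn (|σ0.im| + 1)
  refine continuousAt_of_dominated (.of_forall h.ms) ?_
    ((gi hn σ0.re).const_mul (K * Real.exp (r * |σ0.re|)))
    (.of_forall fun s => ((gs_diff s).continuous.smul continuous_const).continuousAt)
  filter_upwards [Metric.ball_mem_nhds σ0 one_pos] with σ hσ
  exact .of_forall fun s => k σ0.re σ s (near hσ).1 (near hσ).2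

theorem Gs_shift (σ : ℂ) (t : ℝ) : Gs n a (σ + t) = Gs n (fun s => a (s + t)) σ := by
  rw [Gs, ← integral_add_right_eq_self _ t]
  refine integral_congr_ae (.of_forall fun s => ?_)
  simp only [gs]
  congr 4
  push_cast
  ring

theorem Eg.shift (h : Eg a) (t : ℝ) : Eg fun s => a (s + t) := by
  obtain ⟨C, r, hC, hr, k⟩ := h.bd
  refine ⟨h.cont.comp (by fun_prop), C * Real.exp (r * |t|), r, by positivity, hr, fun s =>
    (k _).trans ?_⟩
  rw [mul_assoc, ← Real.exp_add, ← mul_add, add_comm |t|]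
  gcongr
  exact abs_add_le _ _

theorem Eg.neg (h : Eg a) : Eg fun s => a (-s) := by
  obtain ⟨C, r, hC, hr, k⟩ := h.bd
  exact ⟨h.cont.comp continuous_neg, C, r, hC, hr, fun s => by simpa using k (-s)⟩

theorem Eg.of_le {F : Type*} [NormedAddCommGroup F] [NormedSpace ℂ F] {b : ℝ → F} (h : Eg a)
    (c : Continuous b) (K : ℝ) (hK : 0 ≤ K) (e : ∀ s, ‖b s‖ ≤ K * ‖a s‖) : Eg b := by
  obtain ⟨C, r, hC, hr, k⟩ := h.bd
  exact ⟨c, K * C, r, by positivity, hr, fun s => (e s).trans (by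
    rw [mul_assoc]; exact mul_le_mul_of_nonneg_left (k s) hK)⟩

theorem Eg.const (x : E) : Eg fun _ : ℝ => x :=
  ⟨continuous_const, ‖x‖, 0, norm_nonneg _, le_rfl, fun s => by simp⟩

theorem Eg.add {b : ℝ → E} (h : Eg a) (h' : Eg b) : Eg fun s => a s + b s := by
  obtain ⟨C, r, hC, hr, k⟩ := h.bd
  obtain ⟨C', r', hC', hr', k'⟩ := h'.bd
  refine ⟨h.cont.add h'.cont, C + C', r + r', by positivity, by positivity, fun s =>
    (norm_add_le _ _).trans ?_⟩
  rw [add_mul]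
  refine add_le_add ((k s).trans ?_) ((k' s).trans ?_) <;> gcongr <;> linarith

theorem Eg.smul {κ : ℝ → ℂ} (h' : Eg κ) (h : Eg a) : Eg fun s => κ s • a s := by
  obtain ⟨C, r, hC, hr, k⟩ := h.bd
  obtain ⟨C', r', hC', hr', k'⟩ := h'.bd
  refine ⟨h'.cont.smul h.cont, C' * C, r' + r, by positivity, by positivity, fun s => ?_⟩
  rw [norm_smul, add_mul, Real.exp_add, mul_mul_mul_comm]
  exact mul_le_mul (k' s) (k s) (norm_nonneg _) (by positivity)

variable [CompleteSpace E]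

/-- uniform limits in the strip -/
theorem lim_strip (φ : ℕ → ℂ → E) (h1 : ∀ n, DifferentiableOn ℂ (φ n) So)
    (h2 : ∀ n, ContinuousOn (φ n) Sc) (h3 : ∀ n, ∃ C, ∀ z ∈ Sc, ‖φ n z‖ ≤ C) (b : ℕ → ℝ)
    (hb : Tendsto b atTop (𝓝 0)) (h4 : ∀ n m, ∀ z ∈ Sc, ‖φ n z - φ m z‖ ≤ b n + b m) :
    ∃ ψ : ℂ → E, DifferentiableOn ℂ ψ So ∧ ContinuousOn ψ Sc ∧ (∃ C, ∀ z ∈ Sc, ‖ψ z‖ ≤ C) ∧
      ∀ z ∈ Sc, Tendsto (fun n => φ n z) atTop (𝓝 (ψ z)) := by
  have u : UniformCauchySeqOn φ atTop Sc := by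
    refine Metric.uniformCauchySeqOn_iff.2 fun ε hε => ?_
    obtain ⟨N, hN⟩ := Metric.tendsto_atTop.1 hb (ε / 2) (half_pos hε)
    refine ⟨N, fun m hm n hn z hz => ?_⟩
    have p := hN m hm
    have q := hN n hn
    rw [Real.dist_eq, sub_zero, abs_lt] at p q
    rw [dist_eq_norm]
    linarith [h4 m n z hz]
  have e : ∀ z ∈ Sc, Tendsto (fun n => φ n z) atTop (𝓝 (limUnder atTop fun n => φ n z)) :=
    fun z hz => (u.cauchySeq hz).tendsto_limUnder
  have w := u.tendstoUniformlyOn_of_tendsto e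
  have sub : So ⊆ Sc := fun z hz => ⟨hz.1.le, hz.2.le⟩
  refine ⟨_, (w.mono sub).tendstoLocallyUniformlyOn.differentiableOn (.of_forall h1) isOpen_So,
    w.continuousOn (.of_forall h2), ?_, e⟩
  obtain ⟨N, hN⟩ := (Metric.tendstoUniformlyOn_iff.1 w 1 one_pos).exists
  obtain ⟨C, hC⟩ := h3 N
  refine ⟨C + 1, fun z hz => ?_⟩
  have := hN z hz
  rw [dist_eq_norm] at this
  linarith [norm_sub_norm_le (limUnder atTop fun n => φ n z) (φ N z), hC z hz]

end growth

variable {H : Type*} [NormedAddCommGroup H] [InnerProductSpace ℂ H] [CompleteSpace H]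
  {n : ℝ} {a : ℝ → H}

theorem Eg.inn (h : Eg a) (hn : 0 < n) (y : H) (σ : ℂ) :
    inner ℂ y (Gs n a σ) = ∫ s, gs n σ s * inner ℂ y (a s) := by
  rw [Gs, ← integral_inner (h.int hn σ)]
  simp only [inner_smul_right]

theorem Eg.inn' (h : Eg a) (hn : 0 < n) (y : H) (σ : ℂ) :
    inner ℂ (Gs n a (conj σ)) y = ∫ s, gs n σ s * inner ℂ (a s) y := by
  rw [← inner_conj_symm, h.inn hn, ← integral_conj]
  simp only [map_mul, gs_conj, Complex.conj_conj, inner_conj_symm]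

theorem Eg.gdiff (h : Eg a) (hn : 0 < n) : Differentiable ℂ (Gs n a) := by
  refine differentiableOn_univ.1 (T.nrm_diff isOpen_univ (h.gcont hn).continuousOn fun y σ0 _ => ?_)
  obtain ⟨K, r, -, -, k⟩ := h.gb hn (|σ0.im| + 1)
  simp only [h.inn hn]
  refine (differentiableAt_integral (U := Metric.ball σ0 1) Metric.isOpen_ball
    (fun σ _ => ((gs_cont σ).mul (continuous_const.inner h.cont)).aestronglyMeasurable)
    (.of_forall fun s => ((gs_diff s).mul_const _).differentiableOn) (.of_forall fun s σ hσ => ?_)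
    (((gi hn σ0.re).const_mul (K * Real.exp (r * |σ0.re|))).const_mul ‖y‖)
    (Metric.mem_ball_self one_pos)).differentiableWithinAt
  show ‖gs n σ s * inner ℂ y (a s)‖ ≤ _
  rw [← inner_smul_right]
  exact (norm_inner_le_norm _ _).trans
    (mul_le_mul_of_nonneg_left (k σ0.re σ s (near hσ).1 (near hσ).2) (norm_nonneg _))

/-- one parameter unitary groups -/
structure U1 (V : ℝ → H →L[ℂ] H) : Prop where
  inn : ∀ t x y, inner ℂ (V t x) (V t y) = inner ℂ x y
  add : ∀ s t x, V (s + t) x = V s (V t x)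
  zero : ∀ x, V 0 x = x
  cont : ∀ x, Continuous fun t => V t x

/-- analytic continuation from `x` to `y` -/
abbrev Ho (V : ℝ → H →L[ℂ] H) (x y : H) : Prop := Hol (fun t z => V t z) x y

variable {V : ℝ → H →L[ℂ] H}

namespace U1

variable (u : U1 V)
include u

theorem nrm (t : ℝ) (x : H) : ‖V t x‖ = ‖x‖ := by
  rw [norm_eq_sqrt_re_inner (𝕜 := ℂ), u.inn, ← norm_eq_sqrt_re_inner]

theorem adj (t : ℝ) (x y : H) : inner ℂ (V (-t) x) y = inner ℂ x (V t y) := by
  rw [← u.inn t, ← u.add, add_neg_cancel, u.zero]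

theorem eg (x : H) : Eg fun t => V t x :=
  ⟨u.cont x, ‖x‖, 0, norm_nonneg _, le_rfl, fun s => by simp [u.nrm]⟩

theorem gsh (hn : 0 < n) (x : H) (σ : ℂ) (t : ℝ) :
    Gs n (fun s => V s x) (σ + t) = V t (Gs n (fun s => V s x) σ) := by
  rw [Gs_shift, Gs, Gs, ← (V t).integral_comp_comm ((u.eg x).int hn σ)]
  simp only [map_smul, ← u.add, add_comm t]

theorem three {x y : H} {φ : ℂ → H} (h1 : DifferentiableOn ℂ φ So) (h2 : ContinuousOn φ Sc)
    (h3 : ∃ C, ∀ z ∈ Sc, ‖φ z‖ ≤ C) (h4 : ∀ t : ℝ, φ t = V t x ∧ φ (t - I / 2) = V t y) :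
    ∀ z ∈ Sc, ‖φ z‖ ≤ ‖x‖ + ‖y‖ := fun z hz => by
  obtain ⟨C, hC⟩ := h3
  have k := bound (F := fun w => inner ℂ (φ z) (φ w)) (c := ‖φ z‖ * (‖x‖ + ‖y‖))
    (sst_bd (C := ‖φ z‖ * C) ((innerSL ℂ (φ z)).differentiable.comp_differentiableOn h1)
      (continuousOn_const.inner h2) fun w hw => (norm_inner_le_norm _ _).trans
        (mul_le_mul_of_nonneg_left (hC w hw) (norm_nonneg _))) (by positivity)
    (fun t => (norm_inner_le_norm _ _).trans (by
      rw [(h4 t).1, u.nrm]; gcongr; linarith [norm_nonneg y]))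
    (fun t => (norm_inner_le_norm _ _).trans (by
      rw [(h4 t).2, u.nrm]; gcongr; linarith [norm_nonneg x])) hz
  simp only [inner_self_eq_norm_sq_to_K, norm_pow, norm_algebraMap', norm_norm] at k
  nlinarith [norm_nonneg (φ z), norm_nonneg x, norm_nonneg y]

theorem ho_lim {x y : ℕ → H} {x0 y0 : H} (h : ∀ k, Ho V (x k) (y k))
    (hx : Tendsto x atTop (𝓝 x0)) (hy : Tendsto y atTop (𝓝 y0)) : Ho V x0 y0 := by
  choose φ h1 h2 h3 h4 using h
  obtain ⟨ψ, g1, g2, g3, g4⟩ := lim_strip φ h1 h2 h3 (fun k => ‖x k - x0‖ + ‖y k - y0‖)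
    (add_zero (0 : ℝ) ▸ (tendsto_iff_norm_sub_tendsto_zero.1 hx).add
      (tendsto_iff_norm_sub_tendsto_zero.1 hy)) fun k m z hz => by
      refine (u.three (x := x k - x m) (y := y k - y m) (φ := fun z => φ k z - φ m z)
        ((h1 k).sub (h1 m)) ((h2 k).sub (h2 m)) ?_ (fun t => ?_) z hz).trans ?_
      · obtain ⟨C, hC⟩ := h3 k
        obtain ⟨C', hC'⟩ := h3 m
        exact ⟨C + C', fun z hz => (norm_sub_le _ _).trans (add_le_add (hC z hz) (hC' z hz))⟩
      · simp only [(h4 _ t).1, (h4 _ t).2, map_sub, and_self]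
      · have p := norm_sub_le_norm_sub_add_norm_sub (x k) x0 (x m)
        have q := norm_sub_le_norm_sub_add_norm_sub (y k) y0 (y m)
        rw [norm_sub_rev x0] at p
        rw [norm_sub_rev y0] at q
        linarith
  refine ⟨ψ, g1, g2, g3, fun t => ⟨tendsto_nhds_unique (g4 _ (real_mem t)) ?_,
    tendsto_nhds_unique (g4 _ (low_mem t)) ?_⟩⟩
  · simp only [(h4 _ t).1]
    exact ((V t).continuous.tendsto _).comp hx
  · simp only [(h4 _ t).2]
    exact ((V t).continuous.tendsto _).comp hy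

theorem apx (x : H) : Tendsto (fun k : ℕ => (((k + 1 : ℝ) / √Real.pi : ℝ) : ℂ) •
    Gs ((k + 1) ^ 2) (fun s => V s x) 0) atTop (𝓝 x) := by
  have e : ∀ k : ℕ, (((k + 1 : ℝ) / √Real.pi : ℝ) : ℂ) • Gs ((k + 1) ^ 2) (fun s => V s x) 0 =
      (√Real.pi)⁻¹ • ∫ s : ℝ, Real.exp (-s ^ 2) • V (s / (k + 1)) x := fun k => by
    have p : (0 : ℝ) < k + 1 := by positivity
    have := Measure.integral_comp_div (fun s : ℝ => gs ((k + 1) ^ 2) 0 s • V s x) (k + 1)
    rw [abs_of_pos p] at this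
    rw [Complex.coe_smul, div_eq_inv_mul, mul_smul, Gs, ← this]
    congr 2
    funext s
    rw [gs, ← Complex.coe_smul, Complex.ofReal_exp]
    congr 2
    have : ((k : ℂ) + 1) ≠ 0 := by exact_mod_cast p.ne'
    push_cast
    field_simp
    simp
  simp only [e]
  have i : Integrable fun s : ℝ => Real.exp (-s ^ 2) := by
    simpa using integrable_exp_neg_mul_sq one_pos
  have l := tendsto_integral_of_dominated_convergence (μ := volume)
    (F := fun (k : ℕ) (s : ℝ) => Real.exp (-s ^ 2) • V (s / (k + 1)) x)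
    (f := fun s => Real.exp (-s ^ 2) • x) (fun s => Real.exp (-s ^ 2) * ‖x‖)
    (fun k => (Continuous.smul (show Continuous fun s : ℝ => Real.exp (-s ^ 2) by fun_prop)
      ((u.cont x).comp (by fun_prop))).aestronglyMeasurable)
    (i.mul_const _) (fun k => .of_forall fun s => by
      rw [norm_smul, u.nrm, Real.norm_of_nonneg (Real.exp_pos _).le])
    (.of_forall fun s => Tendsto.const_smul (by
      have := ((u.cont x).tendsto 0).comp (tendsto_const_div_atTop_nhds_zero_nat s |>.comp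
        (tendsto_add_atTop_nat 1))
      simpa [u.zero, Function.comp_def] using this) _)
  have g : ∫ s : ℝ, Real.exp (-s ^ 2) = √Real.pi := by simpa using integral_gaussian 1
  have := l.const_smul (√Real.pi)⁻¹
  rwa [integral_smul_const, g, smul_smul, inv_mul_cancel₀ (Real.sqrt_pos.2 Real.pi_pos).ne',
    one_smul] at this

/-- the Gaussian criterion -/
theorem ho_of {x y : H} (h : ∀ n : ℝ, 0 < n →
    Gs n (fun s => V s x) (-(I / 2)) = Gs n (fun s => V s y) 0) : Ho V x y := by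
  refine u.ho_lim (fun k => ?_) (u.apx x) (u.apx y)
  have p : (0 : ℝ) < (k + 1) ^ 2 := by positivity
  obtain ⟨K, r, -, -, b⟩ := (u.eg x).gb p 1
  refine ⟨fun σ => (((k + 1 : ℝ) / √Real.pi : ℝ) : ℂ) • Gs ((k + 1) ^ 2) (fun s => V s x) σ,
    (((u.eg x).gdiff p).const_smul _).differentiableOn,
    (((u.eg x).gcont p).const_smul _).continuousOn, ?_, fun t => ⟨?_, ?_⟩⟩
  · obtain ⟨K, r, -, -, b⟩ := (u.eg x).gbd p
    refine ⟨‖(((k + 1 : ℝ) / √Real.pi : ℝ) : ℂ)‖ * K, fun z hz => ?_⟩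
    have := b (z.im * I) (by simp [abs_le]; constructor <;> linarith [hz.1, hz.2])
    rw [norm_smul, ← Complex.re_add_im z, add_comm (z.re : ℂ), u.gsh p, u.nrm]
    exact mul_le_mul_of_nonneg_left (by simpa using this) (norm_nonneg _)
  · show _ • _ = V t _
    rw [map_smul, ← u.gsh p, zero_add]
  · show _ • _ = V t _
    rw [map_smul, ← h _ p, ← u.gsh p, neg_add_eq_sub]

end U1

theorem flip_mem {z : ℂ} (hz : z ∈ Sc) : -z - I / 2 ∈ Sc := by
  constructor <;> simp <;> linarith [hz.1, hz.2]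

theorem flip_mem' {z : ℂ} (hz : z ∈ So) : -z - I / 2 ∈ So := by
  constructor <;> simp <;> linarith [hz.1, hz.2]

theorem diff_inn {u φ : ℂ → H} {z : ℂ} (hu : DifferentiableAt ℂ u (conj z))
    (hφ : DifferentiableAt ℂ φ z) : DifferentiableAt ℂ (fun w => inner ℂ (u (conj w)) (φ w)) z := by
  have d2 := hu.comp_semilinear₁ (σ := starRingEnd ℂ) (starRingEnd ℂ) (innerSL ℂ)
  rw [Complex.conj_conj] at d2
  exact d2.clm_apply hφ

/-- uniqueness for functions of exponential growth -/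
theorem uniqE {F : ℂ → ℂ} (h1 : DifferentiableOn ℂ F So) (h2 : ContinuousOn F Sc) {C r : ℝ}
    (hC : 0 ≤ C) (h3 : ∀ z ∈ Sc, ‖F z‖ ≤ C * Real.exp (r * |z.re|)) (h0 : ∀ t : ℝ, F t = 0) {z : ℂ}
    (hz : z ∈ Sc) : F z = 0 := by
  have k := uniq0 (F := fun w => gs 1 w 0 * F w)
    (sst_bd (C := C * Real.exp (1 + r ^ 2)) ((gs_diff 0).differentiableOn.mul h1)
      ((gs_diff 0).continuous.continuousOn.mul h2) fun w hw => by
        rw [norm_mul, gs_norm]
        refine (mul_le_mul_of_nonneg_left (h3 w hw) (Real.exp_pos _).le).trans ?_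
        rw [mul_left_comm, ← Real.exp_add]
        refine mul_le_mul_of_nonneg_left (Real.exp_le_exp.2 ?_) hC
        nlinarith [hw.1, hw.2, sq_abs w.re, sq_nonneg (|w.re| - r), sq_nonneg w.re])
    (fun t => by simp only [h0, mul_zero]) hz
  exact (mul_eq_zero.1 k).resolve_left (Complex.exp_ne_zero _)

/-- **products** -/
theorem U1.prod (u : U1 V) {x1 y1 x2 y2 x y : H} (p1 : Ho V x1 y1) (p2 : Ho V x2 y2) {S : Set H}
    (hS : Dense S) (h : ∀ w ∈ S, ∃ a b : ℝ → H, Eg a ∧ Eg b ∧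
      (∀ s, inner ℂ (a s) x2 = inner ℂ w (V s x)) ∧
      (∀ s τ, inner ℂ (a (s + τ)) (V (-τ) y2) = inner ℂ (b s) (V τ x1)) ∧
      ∀ s, inner ℂ (b s) y1 = inner ℂ w (V s y)) : Ho V x y := by
  refine u.ho_of fun n hn => hS.eq_of_inner_right ℂ fun w hw => ?_
  obtain ⟨a, b, ha, hb, e1, e2, e3⟩ := h w hw
  obtain ⟨φ, h1, h2, ⟨C, h3⟩, h4⟩ := p1
  obtain ⟨ψ, g1, g2, ⟨C', g3⟩, g4⟩ := p2
  obtain ⟨K, r, hK, hr, b1⟩ := ha.gbd hn
  have C0 : 0 ≤ C := (norm_nonneg _).trans (h3 _ (real_mem 0))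
  have C1 : 0 ≤ C' := (norm_nonneg _).trans (g3 _ (real_mem 0))
  have k := uniqE (F := fun τ => inner ℂ (Gs n a (conj τ)) (ψ (-τ - I / 2)) -
      inner ℂ (Gs n b 0) (φ τ)) (C := K * C' + ‖Gs n b 0‖ * C) (r := r)
    (fun z hz => ((diff_inn (φ := fun τ => ψ (-τ - I / 2)) (ha.gdiff hn _)
      ((g1.differentiableAt (isOpen_So.mem_nhds (flip_mem' hz))).comp z (by fun_prop))).sub
      ((innerSL ℂ _).differentiableAt.comp z
        (h1.differentiableAt (isOpen_So.mem_nhds hz)))).differentiableWithinAt)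
    ((((ha.gcont hn).comp Complex.continuous_conj).continuousOn.inner
      (ContinuousOn.comp g2 (by fun_prop) fun z hz => flip_mem hz)).sub
      (continuousOn_const.inner h2)) (by positivity) (fun z hz => by
      refine (norm_sub_le _ _).trans ?_
      have e : 1 ≤ Real.exp (r * |z.re|) := Real.one_le_exp (by positivity)
      have q1 := (norm_inner_le_norm (𝕜 := ℂ) _ _).trans (mul_le_mul (b1 (conj z) (by
        simp [abs_le]; constructor <;> linarith [hz.1, hz.2])) (g3 _ (flip_mem hz)) (norm_nonneg _)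
        (by positivity))
      have q2 := (norm_inner_le_norm (𝕜 := ℂ) (Gs n b 0) _).trans
        (mul_le_mul_of_nonneg_left (h3 z hz) (norm_nonneg _))
      rw [Complex.conj_re] at q1
      nlinarith [mul_nonneg (norm_nonneg (Gs n b 0)) C0]) (fun t => by
      have q := (g4 (-t)).2
      rw [Complex.ofReal_neg] at q
      have s1 := Gs_shift (n := n) (a := a) 0 t
      rw [zero_add] at s1
      simp only [q, (h4 t).1, Complex.conj_ofReal, s1]
      rw [sub_eq_zero, ← map_zero (starRingEnd ℂ), (ha.shift t).inn' hn, hb.inn' hn]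
      simp only [e2]) (low_mem 0)
  have q := (g4 0).1
  have q' := (h4 0).2
  rw [show -(((0 : ℝ) : ℂ) - I / 2) - I / 2 = ((0 : ℝ) : ℂ) by push_cast; ring, q, q', sub_eq_zero,
    ← map_zero (starRingEnd ℂ), ha.inn' hn, hb.inn' hn] at k
  simp only [u.zero, e1, e3, Complex.ofReal_zero, zero_sub] at k
  rw [(u.eg x).inn hn, (u.eg y).inn hn, k]

end

end Vale.Agent.N352.Rn
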