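import Vale.Agent.N352.Rn.Gr

/-!
# N352, block Rn: the theorem of Bisognano and Wichmann for polynomials in the fields
-/

set_option linter.all false

open Filter Topology
open scoped ComplexConjugate

namespace Vale.Agent.N352.Rn

open Vale.Agent.P352 Vale.Agent.P352.GF Vale.Agent.P352.BW Vale.Agent.P352.H246
open Vale.Agent.P352.H496 Vale.Agent.P352.H755 Vale.Agent.P352.H15
open Vale.Agent.P352X Vale.Agent.P352X.EB E
open Vale.Agent.P352.SubConf (IsAdj)
open Vale.Agent.P352X.EG (OneP rpx_row sst_row)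
open Vale.Agent.P352X.EG.Bws (lor bq_inv nice in_rq in_bar bi_eq sg_sq)
open UniformSpace (Completion)
open Complex (I)

noncomputable section

universe u

variable {D : Type u} [NormedAddCommGroup D] [InnerProductSpace ℂ D] {c : Cf D}

open T O649 H746 in
/-- one field -/
theorem og {V : ℝ → Completion D →L[ℂ] Completion D} (u : U1 V) {n : ℕ} {Φ : Fin n → Fld D}
    (hΦ : ∀ i, c.Q.fld (Φ i)) {κ : ℂ → Fin n → ℂ} (hκ : ∀ i, Nice fun z => κ z i) {f : Fn}
    (hf : In W0 f) {x x' : Completion D} (hx : ∀ t : ℝ,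
      V t x = (op hΦ (κ t) (T.test_lor (lor (-t)) hf.1) c.Q.vac : D) ∧ V t x' =
        (op hΦ (κ (t - I / 2)) (T.test_lor (lor (-t)) (in_rq hf).1) c.Q.vac : D)) : Ho V x x' := by
  have ha := null_va
  have hb := null_vb
  have hab := md_ab
  obtain ⟨F, rfl⟩ := exists_fl hf.1
  have hF := isTest_of_in hf
  choose μ K using fun ν => exists_cvd (Q := c.Q) (kf (hΦ ν)) (kf_cov (hΦ ν))
  let G : ℂ → Completion D := fun z => ∑ ν, κ z ν • (K ν).J (gz va vb (μ ν) F z)
  have hv : ∀ t : ℝ, G t = V t x ∧ G (t - I / 2) = V t x' := fun t => by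
    rw [(hx t).1, (hx t).2, op_apply, op_apply, EG.Bws.coe_sum, EG.Bws.coe_sum, ← bi_eq]
    refine ⟨Finset.sum_congr rfl fun ν _ => ?_, Finset.sum_congr rfl fun ν _ => ?_⟩
    · rw [gz_real ha hb hab (K ν).temp (K ν).cone F hF, (K ν).J_toL, cp_bi ha hb hab]
      rfl
    · rw [gz_half ha hb hab (K ν).temp (K ν).cone F hF, (K ν).J_toL, cp_rq ha hb hab,
        cp_bi ha hb hab]
      rfl
  have hc : ContinuousOn G T.Sm := continuousOn_finset_sum _ fun ν _ =>
    (hκ ν).cont.smul ((K ν).J.continuous.comp_continuousOn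
      (cont_gz ha hb hab (K ν).temp (K ν).cone F hF))
  have hn : ∀ y : Completion D, Nice fun z => inner ℂ y (G z) := fun y => by
    simp only [G, inner_sum, inner_smul_right, ← ContinuousLinearMap.adjoint_inner_left]
    exact Nice.sum _ fun ν _ => (hκ ν).mul (nice_gz ha hb hab (K ν).temp (K ν).cone F hF _)
  refine ⟨G, nrm_diff H234U.isOpen_So (hc.mono fun z hz => ⟨hz.1.le, hz.2.le⟩)
    fun y => (hn y).diff, hc, ⟨‖x‖ + ‖x'‖, fun z hz => ?_⟩, hv⟩
  have h1 : ‖inner ℂ (G z) (G z)‖ ≤ ‖G z‖ * (‖x‖ + ‖x'‖) :=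
    (hn (G z)).pl (fun t => (norm_inner_le_norm _ _).trans (by
      rw [(hv t).1, u.nrm]; gcongr; linarith [norm_nonneg x'])) (fun t =>
      (norm_inner_le_norm _ _).trans (by
        rw [(hv t).2, u.nrm]; gcongr; linarith [norm_nonneg x])) hz.1 hz.2
  simp only [inner_self_eq_norm_sq_to_K, norm_pow, norm_algebraMap', norm_norm] at h1
  nlinarith [norm_nonneg (G z), norm_nonneg x, norm_nonneg x']

/-- Reeh and Schlieder for wedges -/
theorem dn (Q : Theory D) {a b : V} (ha : IsNull a) (hb : IsNull b) (hab : GF.mdot a b = 1) :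
    Dense (PS Q (MW (Wdg a b 0)) : Set D) := by
  refine dense_big ?_
  rw [show Wdg a b 0 = {y : V | 0 < GF.mdot b y ∧ GF.mdot a y < 0} from Set.ext fun z => by
    simp only [Wdg, sub_zero, Set.mem_setOf_eq, and_comm]]
  refine big_two (c := a - b) one_pos one_pos ?_ ?_
  · rw [H755.md_sub, H755.md_comm, hab, hb.1, sub_zero]
  · rw [H755.md_sub, hab, ha.1, zero_sub]

variable {X X' Y Y' Z Z' R R' : Module.End ℂ D}

/-- adjoints -/
def Ad (X X' : Module.End ℂ D) : Prop := ∀ v w, inner ℂ (X v) w = inner ℂ v (X' w)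

theorem Ad.symm (h : Ad X X') : Ad X' X := fun v w => by
  rw [← inner_conj_symm, ← h, inner_conj_symm]

theorem Ad.mul (h : Ad X X') (k : Ad Y Y') : Ad (X * Y) (Y' * X') := fun v w =>
  (h _ _).trans (k _ _)

variable (c) in
/-- commutes with the fields in the wedge -/
def P1 (Y : Module.End ℂ D) : Prop :=
  ∀ B (hB : c.Q.fld B) f (hf : In W0 f), Commute (Fss.fl hB hf.1) Y

theorem P1.op (h : P1 c Y) {n : ℕ} {Φ : Fin n → Fld D} (k : ∀ a, c.Q.fld (Φ a)) (z : Fin n → ℂ)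
    {f : Fn} (hf : In W0 f) : Commute (op k z hf.1) Y :=
  Commute.sum_left _ _ _ fun a _ => (h _ (k a) f hf).smul_left _

variable (c) in
/-- `Y` is the reflection of `X` -/
structure Hf (X Y : Module.End ℂ D) : Prop where
  p0 : ∀ τ, ∃ Z, vd c τ * X = Z * vd c τ ∧ ∀ Y, P1 c Y → Commute Z Y
  p1 : P1 c Y
  gx : ∀ P, G0 c P → G0 c (P * X)
  gy : ∀ P, G0 c P → G0 c (P * Y)
  ho : Ho (Vb c) (X c.Q.vac : D) (Y c.Q.vac : D)

theorem Hf.one : Hf c 1 1 :=
  ⟨fun τ => ⟨1, by simp, fun Y _ => .one_left Y⟩, fun _ _ _ _ => .one_right _,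
    fun P h => by rwa [mul_one], fun P h => by rwa [mul_one], ho_fix (Vb_vac c)⟩

theorem Hf.add (h : Hf c X Y) (k : Hf c Z R) : Hf c (X + Z) (Y + R) where
  p0 τ := have ⟨A, a, b⟩ := h.p0 τ
    have ⟨A', a', b'⟩ := k.p0 τ
    ⟨A + A', by rw [mul_add, add_mul, a, a'], fun Y y => (b Y y).add_left (b' Y y)⟩
  p1 B b f l := (h.p1 B b f l).add_right (k.p1 B b f l)
  gx P p := mul_add P X Z ▸ (h.gx P p).add (k.gx P p)
  gy P p := mul_add P Y R ▸ (h.gy P p).add (k.gy P p)
  ho := by simpa only [LinearMap.add_apply, Completion.coe_add] using h.ho.add k.ho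

theorem Hf.smul (h : Hf c X Y) (z : ℂ) : Hf c (z • X) (z • Y) where
  p0 τ := have ⟨A, a, b⟩ := h.p0 τ
    ⟨z • A, by rw [mul_smul_comm, smul_mul_assoc, a], fun Y y => (b Y y).smul_left z⟩
  p1 B b f l := (h.p1 B b f l).smul_right z
  gx P p := mul_smul_comm z P X ▸ (h.gx P p).smul z
  gy P p := mul_smul_comm z P Y ▸ (h.gy P p).smul z
  ho := by simpa only [LinearMap.smul_apply, Completion.coe_smul] using h.ho.smul z

variable (c) in
/-- with adjoints -/
structure Qd (X X' Y Y' : Module.End ℂ D) : Prop where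
  ax : Ad X X'
  ay : Ad Y Y'
  h : Hf c X Y
  h' : Hf c X' Y'

theorem Qd.symm (h : Qd c X X' Y Y') : Qd c X' X Y' Y := ⟨h.ax.symm, h.ay.symm, h.h', h.h⟩

theorem Qd.smul (h : Qd c X X' Y Y') (z : ℂ) :
    Qd c (z • X) (conj z • X') (z • Y) (conj z • Y') :=
  ⟨fun v w => by simp only [LinearMap.smul_apply, inner_smul_left, inner_smul_right, h.ax v w],
    fun v w => by simp only [LinearMap.smul_apply, inner_smul_left, inner_smul_right, h.ay v w],
    h.h.smul z, h.h'.smul _⟩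

theorem Qd.add (h : Qd c X X' Y Y') (k : Qd c Z Z' R R') :
    Qd c (X + Z) (X' + Z') (Y + R) (Y' + R') :=
  ⟨fun v w => by simp only [LinearMap.add_apply, inner_add_left, inner_add_right, h.ax v w, k.ax v w],
    fun v w => by simp only [LinearMap.add_apply, inner_add_left, inner_add_right, h.ay v w, k.ay v w],
    h.h.add k.h, h.h'.add k.h'⟩

theorem Qd.one : Qd c 1 1 1 1 := ⟨fun _ _ => rfl, fun _ _ => rfl, .one, .one⟩

variable (u : U1 (Vb c))
include u

theorem Qd.mul0 (h : Qd c X X' Y Y') (k : Qd c Z Z' R R') : Hf c (X * Z) (R * Y) where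
  p0 τ := have ⟨A, a, b⟩ := h.h.p0 τ
    have ⟨A', a', b'⟩ := k.h.p0 τ
    ⟨A * A', by rw [← mul_assoc, a, mul_assoc, a', mul_assoc], fun Y y => (b Y y).mul_left (b' Y y)⟩
  p1 B b f l := (k.h.p1 B b f l).mul_right (h.h.p1 B b f l)
  gx P p := mul_assoc P X Z ▸ k.h.gx _ (h.h.gx P p)
  gy P p := mul_assoc P R Y ▸ h.h.gy _ (k.h.gy P p)
  ho := by
    refine u.prod h.h.ho k.h.ho Completion.denseRange_coe ?_
    rintro _ ⟨w, rfl⟩
    refine ⟨fun s => (X' (vd c (-s) w) : D), fun s => (R' (vd c (-s) w) : D),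
      (G0.eg u h.ax.symm (one_mul X' ▸ h.h'.gx 1 .one)
        (h.h'.gx _ (one_mul X ▸ h.h.gx 1 .one)) w).neg,
      (G0.eg u k.ay.symm (one_mul R' ▸ k.h'.gy 1 .one)
        (k.h'.gy _ (one_mul R ▸ k.h.gy 1 .one)) w).neg, fun s => ?_, fun s τ => ?_, fun s => ?_⟩
    · rw [← u.adj, vd_coe, Completion.inner_coe, Completion.inner_coe, h.ax.symm]
      rfl
    · obtain ⟨A, a, b⟩ := h.h.p0 τ
      have a' : ∀ v, vd c τ (X v) = A (vd c τ v) := DFunLike.congr_fun a
      have e : vd c τ (vd c (-τ) (R c.Q.vac)) = R c.Q.vac := Completion.coe_injective D (by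
        rw [← vd_coe, ← vd_coe, ← u.add, add_neg_cancel, u.zero])
      rw [vd_coe, vd_coe, Completion.inner_coe, Completion.inner_coe, h.ax.symm, k.ay.symm,
        ← Completion.inner_coe, ← vd_coe, neg_add_rev, u.add, u.adj, vd_coe, vd_coe,
        Completion.inner_coe, a', a', e, vd_vac]
      exact congrArg _ (DFunLike.congr_fun (b R k.h.p1).eq _)
    · rw [← u.adj, vd_coe, Completion.inner_coe, Completion.inner_coe, k.ay.symm]
      rfl

theorem Qd.mul (h : Qd c X X' Y Y') (k : Qd c Z Z' R R') :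
    Qd c (X * Z) (Z' * X') (R * Y) (Y' * R') :=
  ⟨h.ax.mul k.ax, k.ay.mul h.ay, h.mul0 u k, k.symm.mul0 u h.symm⟩

theorem Qd.inn (h : Qd c X X' Y Y') (k : Qd c Z Z' R R') :
    inner ℂ (Y c.Q.vac) (R c.Q.vac) = inner ℂ (Z' c.Q.vac) (X' c.Q.vac) := by
  have := (k.mul0 u h.symm).ho.vac u (Vb_vac c)
  rw [h.ay, k.ax.symm]
  simpa only [Cf.Om, om, Completion.inner_coe, Module.End.mul_apply] using this

section letters

omit u

/-- powers of the grading -/
def ge (c : Cf D) (e : Bool) : Module.End ℂ D := cond e (gl c) 1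

theorem ge_vac (e : Bool) : ge c e c.Q.vac = c.Q.vac := by
  cases e
  exacts [rfl, c.hN.vac]

theorem ge_pa {e e' : Bool} {B : Fld D} (h : Pa c e B) {f : Fn} (hf : IsTest f) (v : D) :
    B f (ge c e' v) = sg (e && e') • ge c e' (B f v) := by
  cases e'
  · simp [ge, sg]
  · rw [Bool.and_true]
    exact h f v hf

theorem pa0 {B : Fld D} (h : c.Q.bose B) : Pa c false B := fun f v hf =>
  (c.hN.bose B f v h hf).trans (one_smul _ _).symm

theorem pa1 {B : Fld D} (h : Fer c.Q c.G B) : Pa c true B := fun f v hf =>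
  (h.2 f v hf).trans (neg_one_smul ℂ _).symm

/-- the even and the odd part of a multiplet -/
theorem parts (c : Cf D) {k : Rp} {Φ : Fin k.n → Fld D} (h : IsMf c.Q k Φ) :
    ∃ Ψ : Bool → Fin k.n → Fld D, (∀ e, IsMf c.Q k (Ψ e)) ∧ (∀ a, c.Q.bose (Ψ false a)) ∧
      (∀ a, Fer c.Q c.G (Ψ true a)) ∧ ∀ a f v, IsTest f → Φ a f v = ∑ e, Ψ e a f v := by
  choose C C' a1 a2 a3 using fun a => c.hN.split _ (h.1 a)
  have gg : ∀ v, gl c (gl c v) = v := c.hN.inv
  have p : ∀ (e : Bool) a f v, IsTest f → cond e (C' a) (C a) f v =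
      (2⁻¹ : ℂ) • (Φ a f v + sg e • gl c (Φ a f (gl c v))) := fun e a f v hf => by
    rw [a3 a f v hf, a3 a f _ hf, show C a f (gl c v) = gl c (C a f v) from c.hN.bose _ f v (a1 a) hf,
      show C' a f (gl c v) = -gl c (C' a f v) from (a2 a).2 f v hf, map_add, map_neg, gg, gg]
    cases e <;> simp only [sg, cond_false, cond_true] <;> module
  refine ⟨fun e a => cond e (C' a) (C a), fun e => ⟨fun a => ?_, fun a L f v hL hf => ?_⟩, a1, a2,
    fun a f v hf => by rw [Fintype.sum_bool, add_comm]; exact a3 a f v hf⟩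
  · cases e
    exacts [c.Q.bose_fld _ (a1 a), (a2 a).1]
  · let U : D →ₗ[ℂ] D := ⟨⟨c.Q.U 1 L 0, U_add one_pos hL 0⟩, U_smul one_pos hL 0⟩
    have gu : ∀ w, gl c (U w) = U (gl c w) := fun w => (c.hN.GU 1 L 0 w one_pos hL).symm
    have ml : ∀ w, Φ a f (U w) = ∑ b, k.ρ L b a • U (Φ b (fun x => f (sim 1 L 0 x)) w) :=
      fun w => h.2 a L f w hL hf
    show cond e (C' a) (C a) f (U v) = ∑ b, _ • U _
    simp only [p _ _ _ _ hf, p _ _ _ _ (Ap.test_sim one_pos hL 0 hf), gu, ml, map_sum, map_smul,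
      map_add, Finset.smul_sum, smul_add, ← Finset.sum_add_distrib]
    exact Finset.sum_congr rfl fun b _ => by module

variable {k : Rp} {Φ Φ' : Fin k.n → Fld D} {W : ℂ → Matrix (Fin k.n) (Fin k.n) ℂ} {σ e : Bool}
  (h : IsMf c.Q k Φ) (hP : ∀ a, Pa c e (Φ a)) (z : Fin k.n → ℂ) {f : Fn}
include h hP

theorem p1 (hf : In W1 f) : P1 c (op h.1 z hf.1 * ge c e) := fun B hB g hg => by
  have k : ∀ {e' B} (hB : c.Q.fld B), Pa c e' B →
      Commute (Fss.fl hB hg.1) (op h.1 z hf.1 * ge c e) := fun {e' B} hB p => by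
    ext v
    simp only [Module.End.mul_apply, op_apply, map_sum, map_smul, Fss.fl_apply]
    refine Finset.sum_congr rfl fun a _ => congrArg _ ?_
    rw [Bas.comm _ _ _ _ _ _ _ hB (h.1 a) p (hP a) hg.1 hf.1
      (Ap.sep_wdg null_va null_vb hg.2.2 hf.2.2), ge_pa p hg.1, H746.fld_smul (h.1 a) hf.1, smul_smul,
      sg_sq, one_smul]
  obtain ⟨C, C', a, b, d⟩ := c.hN.split B hB
  rw [show Fss.fl hB hg.1 = Fss.fl (c.Q.bose_fld _ a) hg.1 + Fss.fl b.1 hg.1 from
    LinearMap.ext fun v => d g v hg.1]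
  exact (k _ (pa0 a)).add_left (k _ (pa1 b))

include u

theorem hf1 (hW : OneP k W σ) (hf : In W0 f) :
    Hf c (op h.1 z hf.1) (op h.1 ((W (I / 2)).mulVec z) (in_rq hf).1 * ge c e) where
  p0 τ := ⟨_, cov' h hW τ z hf.1, fun Y y => y.op h.1 _ (T.in_cp (bq_inv (add_neg_cancel τ))
    (bq_inv (neg_add_cancel τ)) (fun x hx => bq_inv (add_neg_cancel τ) x ▸
      T.H732W.bq_wdg null_va null_vb md_ab τ ⟨_, hx, rfl⟩) hf)⟩
  p1 := p1 h hP _ (in_rq hf)
  gx P p := p.op h z hf.1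
  gy P p := by
    rw [← mul_assoc]
    cases e
    exacts [(mul_one (P * _)).symm ▸ p.op h _ _, (p.op h _ _).gam]
  ho := by
    refine og u h.1 (nice hW true z) hf fun τ => ?_
    rw [Module.End.mul_apply, ge_vac, vd_coe, vd_coe, ← Module.End.mul_apply,
      ← Module.End.mul_apply (vd c τ), cov' h hW, cov' h hW, Module.End.mul_apply,
      Module.End.mul_apply, vd_vac, Matrix.mulVec_mulVec, ← hW.add,
      show sg true * (τ : ℂ) = -τ by simp [sg],
      show sg true * ((τ : ℂ) - I / 2) = -τ + I / 2 by simp [sg]; ring]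
    exact ⟨rfl, rfl⟩

theorem qd1 (hf : In W0 f) : ∃ X' Y Y', Qd c (op h.1 z hf.1) X' Y Y' := by
  obtain ⟨W, σ, hW⟩ := rpx_row.ex k
  choose Φ' a1 a2 using fun a => c.Q.adj _ (h.1 a)
  have h' := Bas.madj (sg_row c) k Φ Φ' h fun a => ⟨a1 a, a2 a⟩
  have hP' := fun a => Bas.padj e _ _ (a2 a) (hP a)
  have ad : ∀ (z : Fin k.n → ℂ) {g} (hg : IsTest g), Ad (op h.1 z hg)
      (op a1 (fun a => conj (z a)) (T.test_bar hg)) := fun z g hg v w => by
    simp only [op_apply, sum_inner, inner_sum, inner_smul_left, inner_smul_right, a2 _ _ _ _ hg]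
  have k1 := hf1 u h hP z hW hf
  have k2 : Hf c (op a1 (fun a => conj (z a)) (in_bar hf).1) (op a1 (((W (conj (I / 2))).map
      conj).mulVec fun a => conj (z a)) (in_rq (in_bar hf)).1 * ge c e) :=
    hf1 u h' hP' (fun a => conj (z a)) (rpx_row.cj k W σ hW) (in_bar hf)
  have e1 : ((W (conj (I / 2))).map conj).mulVec (fun a => conj (z a)) =
      sg σ • fun a => conj ((W (I / 2)).mulVec z a) := by
    rw [show W (I / 2) = W I * W (conj (I / 2)) by
      rw [← hW.add, map_div₀, Complex.conj_I, map_ofNat]; congr 1; ring, hW.per, Matrix.smul_mul,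
      Matrix.one_mul]
    funext a
    cases σ <;> simp [sg, Matrix.mulVec, dotProduct]
  rw [e1, op_smul] at k2
  have ay : Ad (op h.1 ((W (I / 2)).mulVec z) (in_rq hf).1 * ge c e) (sg e • op a1
      (fun a => conj ((W (I / 2)).mulVec z a)) (in_rq (in_bar hf)).1 * ge c e) := fun v w => by
    refine (ad _ _ _ _).trans ((show ∀ x, inner ℂ (ge c e v) x = inner ℂ v (ge c e x) from
      fun x => by cases e; exacts [rfl, c.hN.herm _ _]) _ |>.trans (congrArg _ ?_))
    simp only [Module.End.mul_apply, LinearMap.smul_apply, op_apply, map_sum, map_smul,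
      ge_pa (hP' _) (in_rq (in_bar hf)).1, Bool.and_self, Finset.smul_sum]
    refine Finset.sum_congr rfl fun a _ => ?_
    rw [smul_comm (sg e), smul_smul (sg e), sg_sq, one_smul]
    rfl
  by_cases hσ : σ = e
  · exact ⟨_, _, _, ad z hf.1, ay, k1, hσ ▸ k2⟩
  have h0 : op h.1 z hf.1 c.Q.vac = 0 := by
    refine Completion.coe_injective D ((sst_row _ _ _ _ _ _ u.inn k1.ho k2.ho ?_).trans
      Completion.coe_zero.symm)
    rw [Completion.inner_coe, Completion.inner_coe, ad, ← Module.End.mul_apply,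
      (k1.p1.op a1 _ (in_bar hf)).eq, Module.End.mul_apply, ← inner_neg_left]
    refine (ay.symm _ _).symm.trans ?_
    congr 1
    revert hσ
    cases σ <;> cases e <;> simp [sg]
  have h1 : op h.1 z hf.1 = 0 := by
    have p : ∀ v, PW c.Q (MW W1) v → op h.1 z hf.1 v = 0 := fun v hv => by
      induction hv with
      | vac => exact h0
      | add _ _ a b => rw [map_add, a, b, add_zero]
      | smul _ _ a => rw [map_smul, a, smul_zero]
      | @fld B g v hB hg _ a =>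
        have hg := In_fl.2 hg
        have k : ∀ {e' B} (hB : c.Q.fld B), Pa c e' B → op h.1 z hf.1 (B (fl g) v) = 0 :=
          fun {e' B} hB p => by
            have := congrArg (sg (e && e') • Fss.fl hB hg.1 ·) a
            simp only [op_apply, map_sum, map_smul, map_zero, smul_zero, Finset.smul_sum,
              smul_comm (sg _), Fss.fl_apply] at this
            simp only [op_apply, ← this, fun a => Bas.comm _ _ _ _ _ _ v (h.1 a) hB (hP a) p hf.1 hg.1
              (Ap.sep_wdg null_va null_vb hf.2.2 hg.2.2)]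
        obtain ⟨C, C', a, b, d⟩ := c.hN.split B hB
        rw [d _ _ hg.1, map_add, k (c.Q.bose_fld _ a) (pa0 a), k b.1 (pa1 b), add_zero]
    refine LinearMap.ext fun v => ext_inner_right ℂ fun w => ?_
    rw [ad, (dn c.Q null_vb null_va (by rw [H755.md_comm]; exact md_ab)).eq_zero_of_inner_right ℂ
      (x := op a1 _ _ w) fun x hx => by rw [← ad z hf.1, p x hx, inner_zero_left]]
    simp
  rw [h1, ← zero_smul ℂ 1]
  exact ⟨_, _, _, Qd.one.smul 0⟩

end letters

variable (m : MfAll c.Q)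
include m

theorem qd2 {B : Fld D} (hB : c.Q.fld B) {f : Fn} (hf : In W0 f) :
    ∃ X' Y Y', Qd c (Fss.fl hB hf.1) X' Y Y' := by
  classical
  obtain ⟨n, C, h, e⟩ := m B hB
  choose k Φ a p q using h
  choose Ψ b1 b2 b3 b4 using fun i => parts c (p i)
  rw [show Fss.fl hB hf.1 = ∑ i, ∑ e, op (b1 i e).1 (Pi.single (a i) 1) hf.1 from
    LinearMap.ext fun v => by
      simp only [Fss.fl_apply, LinearMap.sum_apply, op_apply, Pi.single_apply, ite_smul, one_smul,
        zero_smul, Finset.sum_ite_eq', Finset.mem_univ, if_true, e f v hf.1, q, b4 _ _ f v hf.1]]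
  have s : ∀ {ι : Type} [Fintype ι] {A : ι → Module.End ℂ D}, (∀ i, ∃ X' Y Y', Qd c (A i) X' Y Y') →
      ∃ X' Y Y', Qd c (∑ i, A i) X' Y Y' := fun h => Finset.sum_induction _
    (fun A => ∃ X' Y Y', Qd c A X' Y Y') (fun _ _ ⟨_, _, _, a⟩ ⟨_, _, _, b⟩ => ⟨_, _, _, a.add b⟩)
    ⟨_, _, _, zero_smul ℂ (1 : Module.End ℂ D) ▸ Qd.one.smul 0⟩ fun i _ => h i
  refine s fun i => s fun e => qd1 u (e := e) (b1 i e) (fun a => ?_) _ hf
  cases e
  exacts [pa0 (b2 i a), pa1 (b3 i a)]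

theorem qd3 {A A' : D → D} (h : Al c.Q W0 A A') :
    ∃ X X' Y Y', Qd c X X' Y Y' ∧ ⇑X = A ∧ ⇑X' = A' := by
  suffices k : ∃ X X' Y Y', Qd c X X' Y Y' ∧ ⇑X = A by
    obtain ⟨X, X', Y, Y', q, rfl⟩ := k
    exact ⟨X, X', Y, Y', q, rfl, funext fun w => ext_inner_left ℂ fun v => by
      rw [← q.ax, h.adj]⟩
  induction h with
  | one => exact ⟨_, _, _, _, .one, rfl⟩
  | add _ _ _ _ _ _ a b =>
    obtain ⟨_, _, _, _, a, rfl⟩ := a
    obtain ⟨_, _, _, _, b, rfl⟩ := b
    exact ⟨_, _, _, _, a.add b, rfl⟩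
  | smul z _ _ _ a =>
    obtain ⟨_, _, _, _, a, rfl⟩ := a
    exact ⟨_, _, _, _, a.smul z, rfl⟩
  | fld B _ g _ _ b _ _ hg _ a =>
    obtain ⟨_, _, _, _, a, rfl⟩ := a
    obtain ⟨_, _, _, q⟩ := qd2 u m b hg
    exact ⟨_, _, _, _, q.mul u a, rfl⟩

omit u in
/-- **the theorem of Bisognano and Wichmann for polynomials** -/
theorem bw : U1 (Vb c) ∧ ∃ (ι : Type u) (X X' : ι → D → D) (y : ι → Completion D),
    (∀ i, Al c.Q W0 (X i) (X' i)) ∧ DenseRange (fun i => (X' i c.Q.vac : Completion D)) ∧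
    (∀ i, Ho (Vb c) (X i c.Q.vac : D) (y i)) ∧ ∀ i j, inner ℂ (y i) (y j) =
      inner ℂ (X' j c.Q.vac : Completion D) (X' i c.Q.vac) := by
  have u := u1 c m
  choose X X' Y Y' q a b using fun i : {p : (D → D) × (D → D) // Al c.Q W0 p.1 p.2} => qd3 u m i.2
  refine ⟨u, _, fun i => i.1.1, fun i => i.1.2, fun i => (Y i c.Q.vac : D), fun i => i.2,
    (Completion.denseRange_coe.dense_image (Completion.continuous_coe D)
      (dn c.Q null_va null_vb md_ab)).mono ?_, fun i => by simpa only [← a] using (q i).h.ho, fun i j => ?_⟩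
  · rintro _ ⟨v, hv, rfl⟩
    obtain ⟨A, A', h, rfl⟩ := exists_Al hv
    exact ⟨⟨(A', A), h.star⟩, rfl⟩
  · simp only [← b, Completion.inner_coe, (q i).inn u (q j)]

end

end Vale.Agent.N352.Rn
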