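import Vale.Agent.N352.Rn.Du
import Vale.Agent.N352.Brg
import Vale.Agent.N352.DefR

/-!
# N352, block Rn: relatively local nets give local nets
-/

set_option linter.all false

namespace Vale.Agent.N352.Rn

open Vale.Agent.P352 Vale.Agent.P352.GF Vale.Agent.P352.BW
open Vale.Agent.P352X Vale.Agent.P352X.EB E P352R P352R.Tw
open UniformSpace (Completion)

variable {D : Type*} [NormedAddCommGroup D] [InnerProductSpace ℂ D] {Q : Theory D} {G : D → D}
  {A : (V → V) → D → D} {Γ : Completion D →L[ℂ] Completion D}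
  {N : Set V → VonNeumannAlgebra (Completion D)}

/-- the context -/
def cr (h : Df.RNb Q G A Γ N) : Cf D :=
  ⟨Q, G, A, Γ, Br.gr.1 (Bg.gr.1 h.toGr), h.vac, h.add, h.der, h.ext⟩

theorem rn (h : Df.RNb Q G A Γ N) : RN (cr h) N := by
  have k : ∀ X, kt (cr h) * X * star (kt (cr h)) = (1 / 2 : ℂ) • (X + Γ * X * Γ) +
      (-1 * Complex.I / 2 : ℂ) • ((X - Γ * X * Γ) * Γ) := fun X => by
    have := kz_conj (SGx.g2 (cr h)) (e := -1) (by norm_num) X
    rwa [neg_neg, ← kz_star' (SGx.gs _)] at this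
  refine ⟨h.mono, fun g O o X hX => ?_, fun O O' o o' a b X hX => ?_,
    fun O B B' f o hB ad hf X hX v w => ?_, h.cyc⟩
  · obtain ⟨Y, hY, e⟩ := h.cov g.s g.L g.a O o X hX g.hs g.hL
    have e1 : Y * SGx.U0 (cr h) g.toSg = SGx.U0 (cr h) g.toSg * X := ContinuousLinearMap.ext fun z =>
      (congrArg _ (Ug_apply _ g.hs g.hL _ _)).trans ((e z).trans (Ug_apply _ g.hs g.hL _ _).symm)
    have e2 : SGx.U0 (cr h) g.toSg * X * star (SGx.U0 (cr h) g.toSg) = Y := by
      rw [← e1, mul_assoc, (SGx.uni0 _ _).1.2, mul_one]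
    rcases SGx.cas g with u | u <;> rw [u]
    · rwa [e2]
    · rw [star_mul, SGx.gs, ← mul_assoc, mul_assoc (cr h).Γ, mul_assoc (cr h).Γ, e2]
      exact h.gam _ (Rg.img o g) _ hY
  · have l := h.loc O O' o o' (fun x p y q => Ap.wdg_opp Grp.nb Grp.na (a p) (b q)) X hX
    rw [k]
    exact add_mem ((N O').commutant.toStarSubalgebra.smul_mem l.1 _)
      ((N O').commutant.toStarSubalgebra.smul_mem l.2 _)
  · have l := h.rel O B B' f o hB ad ⟨hf.1, hf.2.1, Set.subset_univ _⟩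
      (fun x p y q => hf.2.2 q x (subset_closure p)) X hX
    rw [k]
    simp only [ContinuousLinearMap.add_apply (_ • _), ContinuousLinearMap.smul_apply,
      inner_add_right, inner_smul_right, l.1 v w, l.2 v w]

/-- **relatively local nets give local nets** -/
theorem net (m : Df.MfA Q) (h : Df.RNb Q G A Γ N) : ∃ N', Df.LNg Q G A Γ N' :=
  ⟨_, Bg.lng.2 (Br.lng.2 (lng (rn h) (Br.mfa.1 (Bg.mfa.1 m))))⟩

end Vale.Agent.N352.Rn
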