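import Vale.Agent.N352.Rn.Net
import Vale.Agent.N352.E.Main

/-!
# N352, block Rn: relatively local nets give local nets, for all classes of fields
-/

namespace Vale.Agent.N352.Rn

open Vale.Agent.P352.GF P352R
open UniformSpace (Completion)

variable {D : Type*} [NormedAddCommGroup D] [InnerProductSpace ℂ D] {Q : Theory D} {G : D → D}
  {A : (V → V) → D → D} {Γ : Completion D →L[ℂ] Completion D}
  {N : Set V → VonNeumannAlgebra (Completion D)}

/-- **relatively local nets give local nets** -/
theorem net' (f : Df.Flds Q) (h : Df.RNb Q G A Γ N) : ∃ N', Df.LNg Q G A Γ N' :=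
  net (f.elim (fun k => Bg.mfa.2 (Br.mfa.2 (E.Mn.cfg (cr h) (Bg.cntf.1 k)).1)) And.left) h

end Vale.Agent.N352.Rn
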