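import Vale.Agent.N352.Rn.Ab

/-!
# N352, block Rn: uniqueness of the modular group
-/

set_option linter.all false

open MeasureTheory Filter Topology
open scoped ComplexConjugate

namespace Vale.Agent.N352.Rn

open Vale.Agent.P352 Vale.Agent.P352.BW Vale.Agent.P352.BW.H234U
open Vale.Agent.P352X.EG (Hol sst_bd)
open Vale.Agent.P132 (ModData)
open Complex (I)

noncomputable section

variable {H : Type*} [NormedAddCommGroup H] [InnerProductSpace ℂ H] [CompleteSpace H]
  {V : ℝ → H →L[ℂ] H}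

theorem Ho.add {x y x' y' : H} (h : Ho V x y) (h' : Ho V x' y') : Ho V (x + x') (y + y') := by
  obtain ⟨φ, h1, h2, ⟨C, h3⟩, h4⟩ := h
  obtain ⟨ψ, g1, g2, ⟨C', g3⟩, g4⟩ := h'
  exact ⟨φ + ψ, h1.add g1, h2.add g2, ⟨C + C', fun z hz =>
    (norm_add_le _ _).trans (add_le_add (h3 z hz) (g3 z hz))⟩, fun t => by
      simp only [Pi.add_apply, h4 t, g4 t, map_add, and_self]⟩

theorem Ho.smul {x y : H} (h : Ho V x y) (c : ℂ) : Ho V (c • x) (c • y) := by
  obtain ⟨φ, h1, h2, ⟨C, h3⟩, h4⟩ := h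
  exact ⟨c • φ, h1.const_smul c, h2.const_smul c, ⟨‖c‖ * C, fun z hz => (norm_smul_le _ _).trans
    (mul_le_mul_of_nonneg_left (h3 z hz) (norm_nonneg _))⟩, fun t => by
      simp only [Pi.smul_apply, h4 t, map_smul, and_self]⟩

theorem ho_fix {x : H} (h : ∀ t, V t x = x) : Ho V x x :=
  ⟨fun _ => x, differentiableOn_const _, continuousOn_const, ⟨_, fun _ _ => le_rfl⟩,
    fun t => ⟨(h t).symm, (h t).symm⟩⟩

theorem Ho.vac (u : U1 V) {ξ x y : H} (h : Ho V x y) (hξ : ∀ t, V t ξ = ξ) :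
    inner ℂ ξ y = inner ℂ ξ x := by
  obtain ⟨φ, h1, h2, ⟨C, h3⟩, h4⟩ := h
  have k := uniq0 (F := fun z => inner ℂ ξ (φ z) - inner ℂ ξ x) (sst_bd (C := ‖ξ‖ * C + ‖inner ℂ ξ x‖)
    (((innerSL ℂ ξ).differentiable.comp_differentiableOn h1).sub_const _)
    ((continuousOn_const.inner h2).sub continuousOn_const) fun z hz => (norm_sub_le _ _).trans
      (add_le_add ((norm_inner_le_norm _ _).trans (mul_le_mul_of_nonneg_left (h3 z hz)
        (norm_nonneg _))) le_rfl)) (fun t => by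
      simp only [(h4 t).1, ← u.adj, hξ, sub_self]) (low_mem 0)
  simpa only [(h4 0).2, u.zero, sub_eq_zero] using k

theorem ex_iso {ι : Type*} {k y : ι → H} (d : DenseRange k)
    (h : ∀ i j, inner ℂ (y i) (y j) = inner ℂ (k i) (k j)) :
    ∃ T : H → H, (∀ a b, inner ℂ (T a) (T b) = inner ℂ a b) ∧ ∀ i, T (k i) = y i := by
  have e : ∀ i j, dist (y i) (y j) = dist (k i) (k j) := fun i j => by
    rw [dist_eq_norm, dist_eq_norm, norm_eq_sqrt_re_inner (𝕜 := ℂ), norm_eq_sqrt_re_inner (𝕜 := ℂ)]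
    simp only [inner_sub_left, inner_sub_right, h]
  have c : UniformContinuous fun p : Set.range k => y p.2.choose :=
    (Isometry.of_dist_eq fun p q => by
      rw [e, p.2.choose_spec, q.2.choose_spec, Subtype.dist_eq]).uniformContinuous
  have a : ∀ i, Dense.extend d (fun p => y p.2.choose) (k i) = y i := fun i =>
    (Dense.extend_of_ind d c ⟨_, i, rfl⟩).trans (dist_eq_zero.1 ((e _ _).trans
      (dist_eq_zero.2 (Set.mem_range_self (f := k) i).choose_spec)))
  have t := (Dense.uniformContinuous_extend d c).continuous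
  exact ⟨_, fun a' b => d.induction_on₂ (isClosed_eq (by fun_prop) (by fun_prop))
    (fun i j => by rw [a, a, h]) a' b, a⟩

open H48 in
/-- **uniqueness of the modular group** -/
theorem U1.uq (u : U1 V) {M : VonNeumannAlgebra H} {ξ : H} (E : ModData M ξ) (hξ : ∀ t, V t ξ = ξ)
    (hM : ∀ t, ∀ X ∈ M, ∃ Y ∈ M, ∀ z, Y (V t z) = V t (X z)) {ι : Type*} {x x' y : ι → H}
    (d : DenseRange x') (k : ∀ i (F G : BoundedContinuousFunction ℝ ℂ),
      (∀ h : ℝ, F h = Real.exp (h / 2) * G h) → E.Th G (E.J (x' i)) = E.Th F (x i))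
    (ho : ∀ i, Ho V (x i) (y i)) (h : ∀ i j, inner ℂ (y i) (y j) = inner ℂ (x' j) (x' i)) (t : ℝ) :
    E.U t = V t := by
  have i1 : ∀ s z, V s (V (-s) z) = z := fun s z => by rw [← u.add, add_neg_cancel, u.zero]
  have i2 : ∀ s z, V (-s) (V s z) = z := fun s z => by rw [← u.add, neg_add_cancel, u.zero]
  have nat : ∀ s F z, V s (E.Th F z) = E.Th F (V s z) := fun s =>
    (T.n M ξ E ⟨⟨V s, V (-s), i2 s, i1 s⟩, u.nrm s⟩ (hξ s) (hM s) fun Y hY => by
      obtain ⟨X, hX, e⟩ := hM (-s) Y hY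
      refine ⟨X, hX, fun z => ?_⟩
      show Y (V s z) = V s (X z)
      rw [← i1 s (Y _), ← e, i2]).1
  have wt : ∀ t F z, Wg E (fun t z => V t z) t (E.Th F z) = E.Th F (Wg E (fun t z => V t z) t z) :=
    fun t F z => by
      have h1 : E.Th (P132.expB (-t)) * E.Th F = E.Th F * E.Th (P132.expB (-t)) := by
        rw [← map_mul, ← map_mul, mul_comm]
      exact (congrArg (E.U (-t)) (nat t F z)).trans (DFunLike.congr_fun h1 _)
  have hK : DenseRange fun i => E.J (x' i) := E.J.surjective.denseRange.comp d E.J.continuous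
  obtain ⟨T, hT, e⟩ := ex_iso hK fun i j => (h i j).trans (E.inner_J_J _ _).symm
  have := triv (W := Wg E fun t z => V t z) (T := T) ⟨fun t a b => (E.inner_U_U _ _ _).trans
    (u.inn t a b), fun s t z => by
      show E.U _ (V _ _) = E.U (-s) (V s (E.Th _ _))
      rw [nat, neg_add, E.U_add_apply, u.add]
      rfl, hT⟩ hK (Y := {y : H | ∃ χ : BoundedContinuousFunction ℝ ℂ, HasCompactSupport χ ∧
        ∃ y₀, E.Th χ y₀ = y}) (fun ζ => Metric.mem_closure_iff.2 fun ε hε =>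
      have ⟨F, hF, _, hF'⟩ := E.Th_nondeg ζ ε hε
      ⟨_, ⟨F, hF, ζ, rfl⟩, by rwa [dist_comm, dist_eq_norm]⟩) ?_ t
  · ext z
    rw [← E.U_apply_neg t (V t z)]
    exact congrArg _ (this z).symm
  rintro _ ⟨i, rfl⟩ _ ⟨χ, hχ, y₀, rfl⟩
  obtain ⟨φ, h1, h2, ⟨C, h3⟩, h4⟩ := ho i
  obtain ⟨C', hC⟩ := ev_bd E χ hχ y₀
  refine ⟨fun z => inner ℂ (ev E χ hχ y₀ (conj z)) (φ z), ⟨fun z hz => (diff_inn
    (ev_diff E χ hχ y₀ _) (h1.differentiableAt (isOpen_So.mem_nhds hz))).differentiableWithinAt,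
    (((ev_diff E χ hχ y₀).continuous.comp Complex.continuous_conj).continuousOn.inner h2).mono
      fun z hz => (mem_cl (by norm_num)).1 hz⟩, ⟨C' * C, fun z a b => (norm_inner_le_norm _ _).trans
      (mul_le_mul (hC z a b) (h3 z ⟨a, b⟩) (norm_nonneg _) ((norm_nonneg _).trans (hC z a b)))⟩,
    fun t => ?_, fun t => ?_⟩
  · have h1 : E.Th (star χ) (E.J (x' i)) = E.Th (star (ez χ hχ (1 / 2))) (x i) := k i _ _ fun u => by
      show conj (ez χ hχ (1 / 2) u) = Real.exp (u / 2) * conj (χ u)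
      rw [b_ez, map_mul, ← Complex.exp_conj, Complex.ofReal_exp]
      congr 2
      rw [map_mul, map_div₀, map_one, map_ofNat, Complex.conj_ofReal]
      push_cast
      ring
    simp only [Complex.conj_ofReal, ev_re, (h4 t).1]
    rw [inner_U_V (V := fun t z => V t z), Th_adj, ← wt, ← h1, wt, ← Th_adj]
  · have h2 : conj ((t : ℂ) - I / 2) = t + I / 2 := by
      rw [map_sub, Complex.conj_ofReal, map_div₀, Complex.conj_I, map_ofNat]
      ring
    simp only [h2, ev_lo, (h4 t).2, e]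
    exact inner_U_V (V := fun t z => V t z) E _ _ _

end

end Vale.Agent.N352.Rn
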