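import Vale.Agent.N352.Rn.Uq
import Vale.Agent.N352.E.Cf
import Vale.Agent.P352X.EG.BWS

/-!
# N352, block Rn: the boosts without the sign
-/

set_option linter.all false

open Filter Topology
open scoped ComplexConjugate

namespace Vale.Agent.N352.Rn

open Vale.Agent.P352 Vale.Agent.P352.GF Vale.Agent.P352.BW Vale.Agent.P352.H246
open Vale.Agent.P352.H496 Vale.Agent.P352.H755 Vale.Agent.P352.H15
open Vale.Agent.P352X Vale.Agent.P352X.EB E
open Vale.Agent.P352X.EG (OneP)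
open Vale.Agent.P352X.EG.Bws (lor bq_bq bq_inv)
open UniformSpace (Completion)

noncomputable section

variable {D : Type*} [NormedAddCommGroup D] [InnerProductSpace ℂ D] (c : Cf D)

/-- the boost as an element of the group -/
def gb (t : ℝ) : Sh c := ⟨⟨1, T.bq va vb t, 0, one_pos, lor t⟩, false⟩

/-- the boosts, without the sign -/
def Vb (τ : ℝ) : Completion D →L[ℂ] Completion D := (gb c (τ / 2)).U c * (gb c (τ / 2)).U c

/-- the boosts on the domain -/
def ub (t : ℝ) : Module.End ℂ D :=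
  ⟨⟨c.Q.U 1 (T.bq va vb t) 0, U_add one_pos (lor t) 0⟩, U_smul one_pos (lor t) 0⟩

/-- the boosts on the domain, without the sign -/
def vd (τ : ℝ) : Module.End ℂ D := ub c (τ / 2) * ub c (τ / 2)

theorem vd_coe (τ : ℝ) (v : D) : Vb c τ v = (vd c τ v : D) :=
  (congrArg _ (Grp.coe one_pos (lor _) 0 v)).trans (Grp.coe one_pos (lor _) 0 _)

theorem vd_vac (τ : ℝ) : vd c τ c.Q.vac = c.Q.vac :=
  (congrArg _ (c.Q.U_vac _ _ _ one_pos (lor _))).trans (c.Q.U_vac _ _ _ one_pos (lor _))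

theorem Vb_vac (τ : ℝ) : Vb c τ c.Om = c.Om := (vd_coe c τ _).trans (congrArg _ (vd_vac c τ))

theorem Vb_uni (τ : ℝ) : Vb c τ ∈ unitary (Completion D →L[ℂ] Completion D) :=
  mul_mem (SGx.uni _) (SGx.uni _)

theorem vd_nrm (τ : ℝ) (v : D) : ‖vd c τ v‖ = ‖v‖ :=
  (U_nrm0 one_pos (lor _) 0 _).trans (U_nrm0 one_pos (lor _) 0 _)

variable {c} {n : ℕ} {Φ : Fin n → Fld D}

/-- one field operators -/
def op (h : ∀ a, c.Q.fld (Φ a)) (z : Fin n → ℂ) {f : Fn} (hf : IsTest f) : Module.End ℂ D :=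
  ∑ a, z a • Fss.fl (h a) hf

theorem op_apply (h : ∀ a, c.Q.fld (Φ a)) (z : Fin n → ℂ) {f : Fn} (hf : IsTest f) (v : D) :
    op h z hf v = ∑ a, z a • Φ a f v := by
  simp only [op, LinearMap.sum_apply, LinearMap.smul_apply, Fss.fl_apply]

theorem op_congr (h : ∀ a, c.Q.fld (Φ a)) {z z' : Fin n → ℂ} {f f' : Fn} (hf : IsTest f)
    (hf' : IsTest f') (e : z = z') (e' : f = f') : op h z hf = op h z' hf' := by
  subst e e'
  rfl

theorem op_smul (h : ∀ a, c.Q.fld (Φ a)) (s : ℂ) (z : Fin n → ℂ) {f : Fn} (hf : IsTest f) :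
    op h (s • z) hf = s • op h z hf := by
  simp only [op, Finset.smul_sum, Pi.smul_apply, smul_eq_mul, mul_smul]

variable {k : Rp} {Φ : Fin k.n → Fld D} {W : ℂ → Matrix (Fin k.n) (Fin k.n) ℂ} {σ : Bool}

theorem cov0 (h : IsMf c.Q k Φ) (t : ℝ) (z : Fin k.n → ℂ) {f : Fn} (hf : IsTest f) :
    op h.1 z hf * ub c t =
      ub c t * op h.1 ((k.ρ (T.bq va vb t)).mulVec z) (T.test_lor (lor t) hf) := by
  ext v
  have e : ∀ a, Φ a f (ub c t v) = ∑ b, k.ρ (T.bq va vb t) b a •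
      ub c t (Φ b (T.cp (T.bq va vb t) f) v) := fun a => h.2 a _ f v (lor t) hf
  simp only [Module.End.mul_apply, op_apply, e, map_sum, map_smul, Finset.smul_sum, Matrix.mulVec,
    dotProduct, Finset.sum_smul, smul_smul]
  rw [Finset.sum_comm]
  exact Finset.sum_congr rfl fun b _ => Finset.sum_congr rfl fun a _ => by rw [mul_comm]

/-- covariance -/
theorem cov (h : IsMf c.Q k Φ) (hW : OneP k W σ) (τ : ℝ) (z : Fin k.n → ℂ) {f : Fn}
    (hf : IsTest f) : op h.1 z hf * vd c τ =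
      vd c τ * op h.1 ((W τ).mulVec z) (T.test_lor (lor τ) hf) := by
  rw [vd, ← mul_assoc, cov0 h, mul_assoc, cov0 h, ← mul_assoc]
  refine congrArg _ (op_congr _ _ _ ?_ (funext fun x => congrArg f ?_))
  · rw [Matrix.mulVec_mulVec, show (τ : ℂ) = (τ / 2 : ℝ) + (τ / 2 : ℝ) by push_cast; ring, hW.add]
    rcases hW.rho (τ / 2) with e | e <;> rw [e]
    rw [neg_mul_neg]
  · rw [bq_bq, add_halves]

theorem cov' (h : IsMf c.Q k Φ) (hW : OneP k W σ) (τ : ℝ) (z : Fin k.n → ℂ) {f : Fn}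
    (hf : IsTest f) : vd c τ * op h.1 z hf =
      op h.1 ((W (-τ)).mulVec z) (T.test_lor (lor (-τ)) hf) * vd c τ := by
  rw [cov h hW]
  refine congrArg _ (op_congr _ _ _ ?_ (funext fun x => (congrArg f ?_).symm))
  · rw [Matrix.mulVec_mulVec, ← hW.add, add_neg_cancel, hW.zero, Matrix.one_mulVec]
  · exact bq_inv (neg_add_cancel τ) x

end

end Vale.Agent.N352.Rn
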